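import Mathlib

/-!
# P141, B10: sums over residue classes and translations
-/

namespace Vale.Agent.P141.PL.H620

open Finset

/-- summability from finite support -/
theorem sm {α : Type*} {h : α → ℝ} (hh : (Function.support h).Finite) : Summable h :=
  summable_of_hasFiniteSupport hh

theorem inj_res {N : ℕ} (hN : 0 < N) (s : ℤ) : Function.Injective fun v : ℤ => (N : ℤ) * v + s := by
  intro a b hab
  have hN' : (N : ℤ) ≠ 0 := by exact_mod_cast hN.ne'
  have h1 : (N : ℤ) * a + s = N * b + s := hab
  have h2 : (N : ℤ) * a = N * b := by linarith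
  exact mul_left_cancel₀ hN' h2

/-- support of a function read along a residue class -/
theorem supp_res {h : ℤ → ℝ} (hh : (Function.support h).Finite) {N : ℕ} (hN : 0 < N) (s : ℤ) :
    (Function.support fun v : ℤ => h (N * v + s)).Finite :=
  hh.preimage (inj_res hN s).injOn

/-- residue classes -/
theorem res_sum {h : ℤ → ℝ} (hh : (Function.support h).Finite) {N : ℕ} (hN : 0 < N) :
    ∑ s ∈ range N, ∑' v : ℤ, h (N * v + s) = ∑' X, h X := by
  have : NeZero N := ⟨hN.ne'⟩
  rw [← (Int.divModEquiv N).symm.tsum_eq h]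
  have hsum : Summable fun p : ℤ × Fin N => h ((Int.divModEquiv N).symm p) :=
    (Int.divModEquiv N).symm.summable_iff.2 (sm hh)
  have h2 : ∀ v : ℤ, Summable fun s : Fin N => h ((Int.divModEquiv N).symm (v, s)) := fun v =>
    (hasSum_fintype _).summable
  rw [hsum.tsum_prod' h2]
  have h3 : ∀ v : ℤ, ∑' s : Fin N, h ((Int.divModEquiv N).symm (v, s))
      = ∑ s ∈ range N, h (N * v + s) := by
    intro v
    rw [tsum_fintype, ← Fin.sum_univ_eq_sum_range (fun s : ℕ => h (N * v + s)) N]
    refine Finset.sum_congr rfl fun s _ => ?_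
    rw [Int.divModEquiv_symm_apply]
    congr 1
    ring
  simp only [h3]
  exact (Summable.tsum_finsetSum (s := range N) (f := fun (s : ℕ) (v : ℤ) => h (N * v + s))
    fun s _ => sm (supp_res hh hN s)).symm

/-- residue classes modulo `2^k`, translations `0 ≤ s < 2^n` -/
theorem res_sum_pow {h : ℤ → ℝ} (hh : (Function.support h).Finite) (k m : ℕ) :
    ∑ s ∈ range (2 ^ (k + m)), ∑' v : ℤ, h (2 ^ k * v + s) = 2 ^ m * ∑' X, h X := by
  induction m with
  | zero =>
    have := res_sum hh (N := 2 ^ k) (by positivity)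
    push_cast at this
    simpa using this
  | succ m ih =>
    have e : 2 ^ (k + (m + 1)) = 2 ^ (k + m) + 2 ^ (k + m) := by ring
    rw [e, Finset.sum_range_add]
    have h2 : ∀ s : ℕ, ∑' v : ℤ, h (2 ^ k * v + ((2 ^ (k + m) + s : ℕ) : ℤ))
        = ∑' v : ℤ, h (2 ^ k * v + s) := by
      intro s
      rw [← (Equiv.addRight ((2 : ℤ) ^ m)).tsum_eq fun v : ℤ => h (2 ^ k * v + s)]
      refine tsum_congr fun v => ?_
      congr 1
      simp only [Equiv.coe_addRight]
      push_cast
      ring
    simp only [h2]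
    rw [ih]
    ring

end Vale.Agent.P141.PL.H620
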