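import Vale.Agent.P141.PL.H620.Defs
import Vale.Agent.P141.PL.H620.Per

/-!
# P141, B10 (b1): from the boxes to the one-dimensional kernel, on the integers
-/

namespace Vale.Agent.P141.PL.H620

open Finset

/-- the correlation of the four functions -/
noncomputable def DD (f : Fin 4 → ℤ → ℝ) (U : ℤ) : ℝ :=
  ∑' X : ℤ, ∏ j : Fin 4, f j (X - ((j : ℕ) : ℤ) * U)

/-- `∑ i x_i` -/
def mo (x : Fin 4 → ℕ) : ℤ := ∑ i : Fin 4, ((i : ℕ) : ℤ) * x i

/-- `2^k (o - 2) + ∑ x_i` -/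
def uu (k : ℕ) (o : ℤ) (x : Fin 4 → ℕ) : ℤ := 2 ^ k * (o - 2) + ∑ i : Fin 4, (x i : ℤ)

/-- the single scale form with kernel on the integers -/
noncomputable def SS (k : ℕ) (o : ℤ) (f : Fin 4 → ℤ → ℝ) : ℝ :=
  ((16 : ℝ) ^ k)⁻¹ * ∑ x ∈ pts k, (∏ i, sg k (x i)) * DD f (uu k o x)

/-- one box -/
noncomputable def HH (k : ℕ) (o : ℤ) (f : Fin 4 → ℤ → ℝ) (X : ℤ) : ℝ :=
  ∑ x ∈ pts k, (∏ i, sg k (x i)) * ∏ j : Fin 4, f j (X + mo x - ((j : ℕ) : ℤ) * uu k o x)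

/-- the box with parameters `v, a, b` -/
def nn (o v a b : ℤ) : Fin 4 → ℤ := ![o - 2 - v + a + 2 * b, v - 2 * a - 3 * b, a, b]

theorem nn_sum (o v a b : ℤ) : ∑ i, nn o v a b i = o - 2 := by
  simp only [nn, Fin.sum_univ_four, Matrix.cons_val_zero, Matrix.cons_val_one, Matrix.cons_val]
  ring

theorem ell_nn (k : ℕ) (o v a b : ℤ) (x : Fin 4 → ℕ) (j : Fin 4) :
    ell j (pt k (nn o v a b) x) = 2 ^ k * v + mo x - ((j : ℕ) : ℤ) * uu k o x := by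
  simp only [ell, pt, nn, mo, uu, Fin.sum_univ_four, Matrix.cons_val_zero, Matrix.cons_val_one,
    Matrix.cons_val, Fin.coe_ofNat_eq_mod]
  norm_num
  ring

theorem loc1_nn (k : ℕ) (o v a b : ℤ) (f : Fin 4 → ℤ → ℝ) :
    loc1 k (nn o v a b) f = ((2 : ℝ) ^ k)⁻¹ * HH k o f (2 ^ k * v) := by
  simp only [loc1, HH, ell_nn]

/-- the target on the nodes `(k, v)`: canonical boxes `(o - 2 - v, v, 0, 0)` -/
def Node (n : ℕ) (B : ℝ) (d : Fin 4 → ℝ) : Prop :=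
  ∀ f : Fin 4 → ℤ → ℝ, (∀ j, (Function.support (f j)).Finite) → ∀ o : ℤ, (o = 1 ∨ o = -1) →
    ∀ V : ℕ, ∑ k ∈ Icc 1 n, ((4 : ℝ) ^ k)⁻¹ * ∑ v ∈ Icc (-(V : ℤ)) V, |loc1 k (nn o v 0 0) f|
      ≤ B * ∏ j, nm (d j) (f j)

theorem HH_supp {f : Fin 4 → ℤ → ℝ} (hf : ∀ j, (Function.support (f j)).Finite) (k : ℕ) (o : ℤ) :
    (Function.support (HH k o f)).Finite := by
  refine ((pts k).finite_toSet.biUnion (t := fun x =>
    (fun X : ℤ => X + mo x - (((0 : Fin 4) : ℕ) : ℤ) * uu k o x) ⁻¹' Function.support (f 0))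
    fun x _ => ?_).subset ?_
  · refine (hf 0).preimage (Function.Injective.injOn ?_)
    intro a b hab
    simpa using hab
  · intro X hX
    simp only [Set.mem_iUnion, Set.mem_preimage, Function.mem_support]
    by_contra hcon
    push Not at hcon
    refine hX ?_
    unfold HH
    refine Finset.sum_eq_zero fun x hx => ?_
    have h0 : ∏ j : Fin 4, f j (X + mo x - ((j : ℕ) : ℤ) * uu k o x) = 0 :=
      Finset.prod_eq_zero (Finset.mem_univ (0 : Fin 4)) (hcon x hx)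
    rw [h0, mul_zero]

/-- translate -/
def tr (f : Fin 4 → ℤ → ℝ) (s : ℤ) : Fin 4 → ℤ → ℝ := fun j m => f j (m + s)

theorem tr_supp {f : Fin 4 → ℤ → ℝ} (hf : ∀ j, (Function.support (f j)).Finite) (s : ℤ)
    (j : Fin 4) : (Function.support (tr f s j)).Finite := by
  refine (hf j).preimage (Function.Injective.injOn ?_)
  intro a b hab
  simpa using hab

theorem nm_tr (f : Fin 4 → ℤ → ℝ) (s : ℤ) (j : Fin 4) (d : ℝ) : nm d (tr f s j) = nm d (f j) := by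
  unfold nm tr
  congr 1
  exact (Equiv.addRight s).tsum_eq fun x => |f j x| ^ (1 / d)

theorem HH_tr (k : ℕ) (o : ℤ) (f : Fin 4 → ℤ → ℝ) (s X : ℤ) :
    HH k o (tr f s) X = HH k o f (X + s) := by
  unfold HH tr
  refine Finset.sum_congr rfl fun x _ => ?_
  congr 1
  refine Finset.prod_congr rfl fun j _ => ?_
  congr 1
  ring

theorem HH_tsum {f : Fin 4 → ℤ → ℝ} (hf : ∀ j, (Function.support (f j)).Finite) (k : ℕ) (o : ℤ) :
    ∑' X, HH k o f X = ∑ x ∈ pts k, (∏ i, sg k (x i)) * DD f (uu k o x) := by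
  have hs : ∀ x : Fin 4 → ℕ, (Function.support fun X : ℤ =>
      ∏ j : Fin 4, f j (X + mo x - ((j : ℕ) : ℤ) * uu k o x)).Finite := by
    intro x
    have h1 : ((fun X : ℤ => X + mo x - (((0 : Fin 4) : ℕ) : ℤ) * uu k o x) ⁻¹'
        Function.support (f 0)).Finite := by
      refine (hf 0).preimage (Function.Injective.injOn ?_)
      intro a b hab
      simpa using hab
    refine h1.subset fun X hX => ?_
    simp only [Set.mem_preimage, Function.mem_support]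
    intro h0
    refine hX ?_
    exact Finset.prod_eq_zero (Finset.mem_univ (0 : Fin 4)) h0
  unfold HH
  rw [Summable.tsum_finsetSum fun x _ => (sm (hs x)).mul_left _]
  refine Finset.sum_congr rfl fun x _ => ?_
  rw [tsum_mul_left]
  congr 1
  unfold DD
  rw [← (Equiv.addRight (mo x)).tsum_eq fun X : ℤ => ∏ j : Fin 4, f j (X - ((j : ℕ) : ℤ) * uu k o x)]
  rfl

theorem nn_inj {o v a b v' a' b' : ℤ} (h : nn o v a b = nn o v' a' b') :
    v = v' ∧ a = a' ∧ b = b' := by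
  have h1 := congrFun h 1
  have h2 := congrFun h 2
  have h3 := congrFun h 3
  simp only [nn, Matrix.cons_val_one, Matrix.cons_val] at h1 h2 h3
  subst h2 h3
  refine ⟨by linarith, rfl, rfl⟩

/-- first consequence of the target: the boxes counted with multiplicity -/
theorem step1 {n : ℕ} {B : ℝ} {d : Fin 4 → ℝ} (hT : Target1 n B d) {f : Fin 4 → ℤ → ℝ}
    (hf : ∀ j, (Function.support (f j)).Finite) {o : ℤ} (ho : o = 1 ∨ o = -1) (V : ℕ) :
    ∑ k ∈ Icc 1 n, ((8 : ℝ) ^ k)⁻¹ * ∑ v ∈ Icc (-(V : ℤ)) V, |HH k o f (2 ^ k * v)|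
      ≤ 100 * B * ∏ j, nm (d j) (f j) := by
  obtain ⟨M, hM, hS⟩ := hT f hf o ho (2 ^ n * (2 * (V + 4)))
  have hMpos : 0 < M := lt_of_lt_of_le (by positivity) hM
  -- the parameter set
  set q : ℕ → ℕ := fun k => M / (10 * 2 ^ k) with hq
  set T : Finset (Σ _ : ℕ, ℤ × ℤ × ℤ) := (Icc 1 n).sigma fun k =>
    Icc (-(V : ℤ)) V ×ˢ Icc (-(q k : ℤ)) (q k) ×ˢ Icc (-(q k : ℤ)) (q k) with hT'
  let e : (Σ _ : ℕ, ℤ × ℤ × ℤ) ↪ ℕ × (Fin 4 → ℤ) :=
    ⟨fun p => (p.1, nn o p.2.1 p.2.2.1 p.2.2.2), by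
      rintro ⟨k, v, a, b⟩ ⟨k', v', a', b'⟩ h
      simp only [Prod.mk.injEq] at h
      obtain ⟨rfl, h⟩ := h
      obtain ⟨rfl, rfl, rfl⟩ := nn_inj h
      rfl⟩
  have hadm : Adm n o (T.map e) := by
    intro s hs
    rw [Finset.mem_map] at hs
    obtain ⟨⟨k, v, a, b⟩, hp, rfl⟩ := hs
    rw [hT', Finset.mem_sigma, Finset.mem_Icc] at hp
    exact ⟨hp.1.1, hp.1.2, nn_sum _ _ _ _⟩
  have hin : Inside M (T.map e) := by
    intro s hs
    rw [Finset.mem_map] at hs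
    obtain ⟨⟨k, v, a, b⟩, hp, rfl⟩ := hs
    rw [hT', Finset.mem_sigma, Finset.mem_Icc] at hp
    simp only [Finset.mem_product, Finset.mem_Icc] at hp
    obtain ⟨⟨hk1, hkn⟩, ⟨hv1, hv2⟩, ⟨ha1, ha2⟩, hb1, hb2⟩ := hp
    have h1 : 10 * 2 ^ k * q k ≤ M := Nat.mul_div_le M (10 * 2 ^ k)
    have h2 : 2 ^ k * (2 * (V + 4)) ≤ M :=
      le_trans (Nat.mul_le_mul_right _ (Nat.pow_le_pow_right (by norm_num) hkn)) hM
    have h1' : (10 : ℤ) * 2 ^ k * q k ≤ M := by exact_mod_cast h1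
    have h2' : (2 : ℤ) ^ k * (2 * (V + 4)) ≤ M := by exact_mod_cast h2
    have hpos : (0 : ℤ) < 2 ^ k := by positivity
    have key : ∀ t : ℤ, -(V + 3 + 5 * q k : ℤ) ≤ t → t ≤ V + 3 + 5 * q k →
        -(M : ℤ) ≤ 2 ^ k * t ∧ (2 : ℤ) ^ k * (t + 1) ≤ M := by
      intro t ht1 ht2
      constructor
      · nlinarith
      · nlinarith
    intro i
    have ho' : -1 ≤ o ∧ o ≤ 1 := by rcases ho with rfl | rfl <;> norm_num
    have hqq : (0 : ℤ) ≤ q k := by positivity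
    have hVV : (0 : ℤ) ≤ V := by positivity
    fin_cases i
    · refine key _ ?_ ?_ <;>
        simp only [e, nn, Function.Embedding.coeFn_mk, Fin.zero_eta, Matrix.cons_val_zero] <;> omega
    · refine key _ ?_ ?_ <;>
        simp only [e, nn, Function.Embedding.coeFn_mk, Fin.mk_one, Matrix.cons_val_one,
          Matrix.cons_val_zero] <;> omega
    · refine key _ ?_ ?_ <;>
        simp only [e, nn, Function.Embedding.coeFn_mk, Fin.reduceFinMk, Matrix.cons_val] <;> omega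
    · refine key _ ?_ ?_ <;>
        simp only [e, nn, Function.Embedding.coeFn_mk, Fin.reduceFinMk, Matrix.cons_val] <;> omega
  have h := hS _ hadm hin
  rw [Finset.sum_map, hT', Finset.sum_sigma] at h
  have hcount : ∀ k ∈ Icc 1 n, ((M : ℝ) ^ 2 / 100) * (((8 : ℝ) ^ k)⁻¹ *
      ∑ v ∈ Icc (-(V : ℤ)) V, |HH k o f (2 ^ k * v)|)
      ≤ ∑ p ∈ Icc (-(V : ℤ)) V ×ˢ Icc (-(q k : ℤ)) (q k) ×ˢ Icc (-(q k : ℤ)) (q k),
        |loc1 (e ⟨k, p⟩).1 (e ⟨k, p⟩).2 f| := by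
    intro k _
    have e1 : ∀ p : ℤ × ℤ × ℤ, |loc1 (e ⟨k, p⟩).1 (e ⟨k, p⟩).2 f|
        = ((2 : ℝ) ^ k)⁻¹ * |HH k o f (2 ^ k * p.1)| := by
      intro p
      show |loc1 k (nn o p.1 p.2.1 p.2.2) f| = _
      rw [loc1_nn, abs_mul, abs_of_pos (by positivity)]
    simp only [e1]
    rw [Finset.sum_product]
    simp only [Finset.sum_const, nsmul_eq_mul]
    rw [← Finset.mul_sum, ← Finset.mul_sum]
    have hS0 : 0 ≤ ∑ v ∈ Icc (-(V : ℤ)) V, |HH k o f (2 ^ k * v)| :=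
      Finset.sum_nonneg fun _ _ => abs_nonneg _
    have hc : (#(Icc (-(q k : ℤ)) (q k) ×ˢ Icc (-(q k : ℤ)) (q k)) : ℝ) = (2 * (q k : ℝ) + 1) ^ 2 := by
      rw [Finset.card_product, Int.card_Icc]
      have : ((q k : ℤ) + 1 - -(q k : ℤ)).toNat = 2 * q k + 1 := by omega
      rw [this]
      push_cast
      ring
    rw [hc]
    have hq1 : (M : ℝ) / (10 * 2 ^ k) ≤ 2 * (q k : ℝ) + 1 := by
      have h3 : M < 10 * 2 ^ k * (q k + 1) := by
        have := Nat.lt_mul_div_succ M (show 0 < 10 * 2 ^ k by positivity)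
        exact this
      have h4 : (M : ℝ) < 10 * 2 ^ k * ((q k : ℝ) + 1) := by exact_mod_cast h3
      have h5 : (0 : ℝ) < 10 * 2 ^ k := by positivity
      rw [div_le_iff₀ h5]
      have h6 : (0 : ℝ) ≤ q k := by positivity
      nlinarith
    have hq2 : ((M : ℝ) / (10 * 2 ^ k)) ^ 2 ≤ (2 * (q k : ℝ) + 1) ^ 2 :=
      pow_le_pow_left₀ (by positivity) hq1 2
    have e3 : ((M : ℝ) ^ 2 / 100) * (((8 : ℝ) ^ k)⁻¹ * ∑ v ∈ Icc (-(V : ℤ)) V,
        |HH k o f (2 ^ k * v)|) = ((M : ℝ) / (10 * 2 ^ k)) ^ 2 * (((2 : ℝ) ^ k)⁻¹ *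
        ∑ v ∈ Icc (-(V : ℤ)) V, |HH k o f (2 ^ k * v)|) := by
      have h8 : (8 : ℝ) ^ k = 2 ^ k * 2 ^ k * 2 ^ k := by
        rw [← mul_pow, ← mul_pow]
        norm_num
      rw [h8]
      field_simp
      ring
    rw [e3]
    exact mul_le_mul_of_nonneg_right hq2 (mul_nonneg (by positivity) hS0)
  have h2 := (Finset.sum_le_sum hcount).trans h
  rw [← Finset.mul_sum] at h2
  have hM2 : (0 : ℝ) < (M : ℝ) ^ 2 / 100 := by positivity
  have e4 : B * (M : ℝ) ^ 2 * ∏ j, nm (d j) (f j)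
      = ((M : ℝ) ^ 2 / 100) * (100 * B * ∏ j, nm (d j) (f j)) := by ring
  rw [e4] at h2
  exact le_of_mul_le_mul_left h2 hM2

theorem eight (k : ℕ) : (8 : ℝ) ^ k = 4 ^ k * 2 ^ k := by rw [← mul_pow]; norm_num

theorem node_eq (k : ℕ) (o : ℤ) (f : Fin 4 → ℤ → ℝ) (V : ℕ) :
    ((4 : ℝ) ^ k)⁻¹ * ∑ v ∈ Icc (-(V : ℤ)) V, |loc1 k (nn o v 0 0) f|
      = ((8 : ℝ) ^ k)⁻¹ * ∑ v ∈ Icc (-(V : ℤ)) V, |HH k o f (2 ^ k * v)| := by
  have e : ∀ v : ℤ, |loc1 k (nn o v 0 0) f| = ((2 : ℝ) ^ k)⁻¹ * |HH k o f (2 ^ k * v)| := by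
    intro v
    rw [loc1_nn, abs_mul, abs_of_pos (by positivity)]
  simp only [e]
  rw [← Finset.mul_sum, eight, mul_inv, mul_assoc]

/-- the boxes of `Target1` give the nodes -/
theorem node_of_target1 {n : ℕ} {B : ℝ} {d : Fin 4 → ℝ} (hT : Target1 n B d) :
    Node n (100 * B) d := by
  intro f hf o ho V
  simp only [node_eq]
  exact step1 hT hf ho V

/-- **(b1)** -/
theorem disc {n : ℕ} {B : ℝ} {d : Fin 4 → ℝ} (hT : Node n B d) {f : Fin 4 → ℤ → ℝ}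
    (hf : ∀ j, (Function.support (f j)).Finite) {o : ℤ} (ho : o = 1 ∨ o = -1) :
    ∑ k ∈ Icc 1 n, |SS k o f| ≤ B * ∏ j, nm (d j) (f j) := by
  -- a bound for all supports
  have hbd : ∃ V : ℕ, ∀ k ∈ Icc 1 n, ∀ s ∈ range (2 ^ n),
      (Function.support fun v : ℤ => HH k o f (2 ^ k * v + s)) ⊆ Icc (-(V : ℤ)) V := by
    have h1 : (⋃ k ∈ (Icc 1 n : Finset ℕ), ⋃ s ∈ (range (2 ^ n) : Finset ℕ),
        (Function.support fun v : ℤ => HH k o f (2 ^ k * v + s))).Finite := by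
      refine Set.Finite.biUnion (Finset.finite_toSet _) fun k _ =>
        Set.Finite.biUnion (Finset.finite_toSet _) fun s _ => ?_
      have := supp_res (HH_supp hf k o) (N := 2 ^ k) (by positivity) s
      push_cast at this
      exact this
    obtain ⟨V, hV⟩ : ∃ V : ℕ, ∀ v ∈ (⋃ k ∈ (Icc 1 n : Finset ℕ), ⋃ s ∈ (range (2 ^ n) : Finset ℕ),
        (Function.support fun v : ℤ => HH k o f (2 ^ k * v + s))), |v| ≤ V := by
      obtain ⟨V, hV⟩ := (h1.image fun v : ℤ => v.natAbs).bddAbove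
      refine ⟨V, fun v hv => ?_⟩
      have := hV ⟨v, hv, rfl⟩
      rw [Int.abs_eq_natAbs]
      exact_mod_cast this
    refine ⟨V, fun k hk s hs v hv => ?_⟩
    have := hV v (Set.mem_biUnion hk (Set.mem_biUnion hs hv))
    rw [abs_le] at this
    rw [Finset.coe_Icc]
    exact this
  obtain ⟨V, hV⟩ := hbd
  have h1 : ∀ s ∈ range (2 ^ n), ∑ k ∈ Icc 1 n, ((8 : ℝ) ^ k)⁻¹ *
      ∑ v ∈ Icc (-(V : ℤ)) V, |HH k o f (2 ^ k * v + s)| ≤ B * ∏ j, nm (d j) (f j) := by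
    intro s _
    have := hT _ (tr_supp hf s) o ho V
    simp only [node_eq, nm_tr, HH_tr] at this
    exact this
  have h2 := Finset.sum_le_sum h1
  rw [Finset.sum_const, Finset.card_range, nsmul_eq_mul, Finset.sum_comm] at h2
  have h3 : ∀ k ∈ Icc 1 n, 2 ^ n * |SS k o f| ≤ ∑ s ∈ range (2 ^ n), ((8 : ℝ) ^ k)⁻¹ *
      ∑ v ∈ Icc (-(V : ℤ)) V, |HH k o f (2 ^ k * v + s)| := by
    intro k hk
    have hkn : k ≤ n := (Finset.mem_Icc.1 hk).2
    obtain ⟨m, rfl⟩ := Nat.exists_eq_add_of_le hkn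
    have e1 : ∀ s ∈ range (2 ^ (k + m)), ∑' v : ℤ, HH k o f (2 ^ k * v + s)
        = ∑ v ∈ Icc (-(V : ℤ)) V, HH k o f (2 ^ k * v + s) := by
      intro s hs
      refine tsum_eq_sum' (hV k hk s hs)
    have e2 := res_sum_pow (HH_supp hf k o) k m
    rw [Finset.sum_congr rfl e1, HH_tsum hf] at e2
    rw [← Finset.mul_sum]
    have h4 : |∑ s ∈ range (2 ^ (k + m)), ∑ v ∈ Icc (-(V : ℤ)) V, HH k o f (2 ^ k * v + s)|
        ≤ ∑ s ∈ range (2 ^ (k + m)), ∑ v ∈ Icc (-(V : ℤ)) V, |HH k o f (2 ^ k * v + s)| :=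
      (Finset.abs_sum_le_sum_abs _ _).trans (Finset.sum_le_sum fun s _ =>
        Finset.abs_sum_le_sum_abs _ _)
    rw [e2] at h4
    refine le_trans (le_of_eq ?_) (mul_le_mul_of_nonneg_left h4 (by positivity))
    rw [SS, abs_mul, abs_mul, abs_of_pos (by positivity : (0 : ℝ) < ((16 : ℝ) ^ k)⁻¹),
      abs_of_pos (by positivity : (0 : ℝ) < 2 ^ m)]
    have h16 : (16 : ℝ) ^ k = 2 ^ k * 8 ^ k := by rw [← mul_pow]; norm_num
    rw [h16, pow_add]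
    field_simp
  have h5 := (Finset.sum_le_sum h3).trans h2
  rw [← Finset.mul_sum] at h5
  have e5 : ((2 ^ n : ℕ) : ℝ) = 2 ^ n := by push_cast; rfl
  rw [e5] at h5
  exact le_of_mul_le_mul_left h5 (by positivity)

end Vale.Agent.P141.PL.H620
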