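import Mathlib

/-!
# P141, B10 (b4): from the single scale forms with kernel `κ(v-1)`, `κ(v+1)` to `1/u`
-/

namespace Vale.Agent.P141.PL.H620

open MeasureTheory Filter Topology

/-- primitive -/
noncomputable def prim (f : ℝ → ℝ) (y : ℝ) : ℝ := ∫ x in (0 : ℝ)..y, f x

lemma prim_zero (f : ℝ → ℝ) : prim f 0 = 0 := by simp [prim]

lemma prim_hasDeriv {f : ℝ → ℝ} (hf : Continuous f) (y : ℝ) : HasDerivAt (prim f) (f y) y :=
  intervalIntegral.integral_hasDerivAt_right (hf.intervalIntegrable _ _)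
    hf.aestronglyMeasurable.stronglyMeasurableAtFilter hf.continuousAt

lemma prim_cont {f : ℝ → ℝ} (hf : Continuous f) : Continuous (prim f) :=
  continuous_iff_continuousAt.2 fun y => (prim_hasDeriv hf y).continuousAt

/-- fourth primitive of `w` -/
noncomputable def V4 (w : ℝ → ℝ) : ℝ → ℝ := prim (prim (prim (prim w)))

/-- the single scale form: eighth difference of `V` with step `t/2`, centred at `o t` -/
noncomputable def Ac (o : ℝ) (V : ℝ → ℝ) (t : ℝ) : ℝ :=
  (V (t * (o - 2)) - 8 * V (t * (o - 3 / 2)) + 28 * V (t * (o - 1)) - 56 * V (t * (o - 1 / 2))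
    + 70 * V (t * o) - 56 * V (t * (o + 1 / 2)) + 28 * V (t * (o + 1)) - 8 * V (t * (o + 3 / 2))
    + V (t * (o + 2))) / t ^ 4

/-- the odd part times two -/
noncomputable def od (w : ℝ → ℝ) (y : ℝ) : ℝ := w y - w (-y)

lemma od_cont {w : ℝ → ℝ} (hw : Continuous w) : Continuous (od w) := by unfold od; fun_prop

/-- fourth primitive of the odd part -/
noncomputable def U4 (w : ℝ → ℝ) : ℝ → ℝ := prim (prim (prim (prim (od w))))

lemma prim_neg_even {f g : ℝ → ℝ} (h : ∀ y, g y = f y - f (-y)) (hf : Continuous f) (y : ℝ) :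
    prim g y = prim f y + prim f (-y) := by
  have : prim g y = (∫ x in (0 : ℝ)..y, f x) - ∫ x in (0 : ℝ)..y, f (-x) := by
    rw [← intervalIntegral.integral_sub (hf.intervalIntegrable _ _)
      ((by fun_prop : Continuous fun x => f (-x)).intervalIntegrable _ _)]
    exact intervalIntegral.integral_congr fun x _ => h x
  rw [this, intervalIntegral.integral_comp_neg, neg_zero, prim, prim,
    intervalIntegral.integral_symm (-y) 0]
  ring

lemma prim_neg_odd {f g : ℝ → ℝ} (h : ∀ y, g y = f y + f (-y)) (hf : Continuous f) (y : ℝ) :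
    prim g y = prim f y - prim f (-y) := by
  have : prim g y = (∫ x in (0 : ℝ)..y, f x) + ∫ x in (0 : ℝ)..y, f (-x) := by
    rw [← intervalIntegral.integral_add (hf.intervalIntegrable _ _)
      ((by fun_prop : Continuous fun x => f (-x)).intervalIntegrable _ _)]
    exact intervalIntegral.integral_congr fun x _ => h x
  rw [this, intervalIntegral.integral_comp_neg, neg_zero, prim, prim,
    intervalIntegral.integral_symm (-y) 0]
  ring

lemma U4_eq {w : ℝ → ℝ} (hw : Continuous w) (y : ℝ) : U4 w y = V4 w y - V4 w (-y) := by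
  have h1 : ∀ y, prim (od w) y = prim w y + prim w (-y) :=
    prim_neg_even (fun _ => rfl) hw
  have h2 : ∀ y, prim (prim (od w)) y = prim (prim w) y - prim (prim w) (-y) :=
    prim_neg_odd h1 (prim_cont hw)
  have h3 : ∀ y, prim (prim (prim (od w))) y = prim (prim (prim w)) y + prim (prim (prim w)) (-y) :=
    prim_neg_even h2 (prim_cont (prim_cont hw))
  exact prim_neg_odd h3 (prim_cont (prim_cont (prim_cont hw))) y

lemma U4_neg {w : ℝ → ℝ} (hw : Continuous w) (y : ℝ) : U4 w (-y) = -U4 w y := by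
  rw [U4_eq hw, U4_eq hw, neg_neg]; ring

/-- the difference of the two single scale forms -/
lemma Ac_diff {w : ℝ → ℝ} (hw : Continuous w) (t : ℝ) :
    Ac 1 (V4 w) t - Ac (-1) (V4 w) t
      = (69 * U4 w t - 48 * U4 w (t / 2) - 56 * U4 w (3 / 2 * t) + 28 * U4 w (2 * t)
        - 8 * U4 w (5 / 2 * t) + U4 w (3 * t)) / t ^ 4 := by
  have e := U4_eq hw
  rw [e, e, e, e, e, e]
  unfold Ac
  rw [show t * (1 - 2 : ℝ) = -t by ring, show t * (1 - 3 / 2 : ℝ) = -(t / 2) by ring,
    show t * (1 - 1 : ℝ) = 0 by ring, show t * (1 - 1 / 2 : ℝ) = t / 2 by ring,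
    show t * (1 : ℝ) = t by ring, show t * (1 + 1 / 2 : ℝ) = 3 / 2 * t by ring,
    show t * (1 + 1 : ℝ) = 2 * t by ring, show t * (1 + 3 / 2 : ℝ) = 5 / 2 * t by ring,
    show t * (1 + 2 : ℝ) = 3 * t by ring, show t * (-1 - 2 : ℝ) = -(3 * t) by ring,
    show t * (-1 - 3 / 2 : ℝ) = -(5 / 2 * t) by ring,
    show t * (-1 - 1 : ℝ) = -(2 * t) by ring, show t * (-1 - 1 / 2 : ℝ) = -(3 / 2 * t) by ring,
    show t * (-1 : ℝ) = -t by ring, show t * (-1 + 1 / 2 : ℝ) = -(t / 2) by ring,
    show t * (-1 + 1 : ℝ) = 0 by ring, show t * (-1 + 3 / 2 : ℝ) = t / 2 by ring,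
    show t * (-1 + 2 : ℝ) = t by ring]
  ring

lemma prim_bound {f : ℝ → ℝ} {c : ℝ} {n : ℕ} {y : ℝ} (hy : 0 ≤ y)
    (h : ∀ x, 0 ≤ x → |f x| ≤ c * x ^ n) : |prim f y| ≤ c / (n + 1) * y ^ (n + 1) := by
  have h1 : ‖∫ x in (0 : ℝ)..y, f x‖ ≤ ∫ x in (0 : ℝ)..y, c * x ^ n := by
    refine intervalIntegral.norm_integral_le_of_norm_le hy ?_
      ((by fun_prop : Continuous fun x : ℝ => c * x ^ n).intervalIntegrable _ _)
    exact ae_of_all _ fun x hx => h x hx.1.le
  rw [intervalIntegral.integral_const_mul, integral_pow] at h1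
  rw [Real.norm_eq_abs] at h1
  refine h1.trans (le_of_eq ?_)
  rw [zero_pow (Nat.succ_ne_zero n)]
  ring

section

variable {w : ℝ → ℝ}

lemma od_bound {S : ℝ} (hS : ∀ u, |w u| ≤ S) (y : ℝ) : |od w y| ≤ 2 * S := by
  unfold od
  have h1 := hS y
  have h2 := hS (-y)
  rw [abs_le] at *
  constructor <;> linarith [h1.1, h1.2, h2.1, h2.2]

lemma U1_bound {S : ℝ} (hS : ∀ u, |w u| ≤ S) {y : ℝ} (hy : 0 ≤ y) :
    |prim (od w) y| ≤ 2 * S * y := by
  have := prim_bound (f := od w) (c := 2 * S) (n := 0) hy (fun x _ => by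
    simpa using od_bound hS x)
  simpa using this

lemma U2_bound {S : ℝ} (hS : ∀ u, |w u| ≤ S) {y : ℝ} (hy : 0 ≤ y) :
    |prim (prim (od w)) y| ≤ S * y ^ 2 := by
  have := prim_bound (f := prim (od w)) (c := 2 * S) (n := 1) hy (fun x hx => by
    simpa using U1_bound hS hx)
  refine this.trans (le_of_eq ?_)
  norm_num

lemma U3_bound {S : ℝ} (hS : ∀ u, |w u| ≤ S) {y : ℝ} (hy : 0 ≤ y) :
    |prim (prim (prim (od w))) y| ≤ S / 3 * y ^ 3 := by
  have := prim_bound (f := prim (prim (od w))) (c := S) (n := 2) hy (fun x hx => by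
    simpa using U2_bound hS hx)
  refine this.trans (le_of_eq ?_)
  norm_num

lemma U4_bound {S : ℝ} (hS : ∀ u, |w u| ≤ S) {y : ℝ} (hy : 0 ≤ y) :
    |U4 w y| ≤ S / 12 * y ^ 4 := by
  have := prim_bound (f := prim (prim (prim (od w)))) (c := S / 3) (n := 3) hy (fun x hx => by
    simpa using U3_bound hS hx)
  refine this.trans (le_of_eq ?_)
  push_cast
  ring

/-- quotients by powers are integrable away from zero -/
lemma ii_div {f : ℝ → ℝ} (hf : Continuous f) (n : ℕ) {a b : ℝ} (ha : 0 < a) (hb : 0 < b) :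
    IntervalIntegrable (fun y => f y / y ^ n) volume a b := by
  refine ContinuousOn.intervalIntegrable ?_
  refine hf.continuousOn.div (by fun_prop) fun y hy => ?_
  have : 0 < y := lt_of_lt_of_le (lt_min ha hb) hy.1
  positivity

lemma V4_cont (hw : Continuous w) : Continuous (V4 w) :=
  prim_cont (prim_cont (prim_cont (prim_cont hw)))

lemma U4_cont (hw : Continuous w) : Continuous (U4 w) :=
  prim_cont (prim_cont (prim_cont (prim_cont (od_cont hw))))

/-- integration by parts, four times -/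
lemma parts (hw : Continuous w) {a b : ℝ} (ha : 0 < a) (hb : 0 < b) :
    (∫ y in a..b, od w y / y) = 24 * (∫ y in a..b, U4 w y / y ^ 5)
      + (6 * U4 w b / b ^ 4 + 2 * prim (prim (prim (od w))) b / b ^ 3
        + prim (prim (od w)) b / b ^ 2 + prim (od w) b / b)
      - (6 * U4 w a / a ^ 4 + 2 * prim (prim (prim (od w))) a / a ^ 3
        + prim (prim (od w)) a / a ^ 2 + prim (od w) a / a) := by
  have ho := od_cont hw
  have h1 := fun y => prim_hasDeriv ho y
  have h2 := fun y => prim_hasDeriv (prim_cont ho) y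
  have h3 := fun y => prim_hasDeriv (prim_cont (prim_cont ho)) y
  have h4 : ∀ y, HasDerivAt (U4 w) (prim (prim (prim (od w))) y) y :=
    fun y => prim_hasDeriv (prim_cont (prim_cont (prim_cont ho))) y
  have hi1 : IntervalIntegrable (fun y => od w y / y) volume a b := by
    simpa using ii_div ho 1 ha hb
  have hi2 := ii_div (U4_cont hw) 5 ha hb
  have key : ∫ y in a..b, (od w y / y - 24 * (U4 w y / y ^ 5))
      = (6 * U4 w b / b ^ 4 + 2 * prim (prim (prim (od w))) b / b ^ 3
        + prim (prim (od w)) b / b ^ 2 + prim (od w) b / b)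
      - (6 * U4 w a / a ^ 4 + 2 * prim (prim (prim (od w))) a / a ^ 3
        + prim (prim (od w)) a / a ^ 2 + prim (od w) a / a) := by
    refine intervalIntegral.integral_eq_sub_of_hasDerivAt
      (f := fun y => 6 * U4 w y / y ^ 4 + 2 * prim (prim (prim (od w))) y / y ^ 3
        + prim (prim (od w)) y / y ^ 2 + prim (od w) y / y)
      (fun y hy => ?_) (hi1.sub (hi2.const_mul 24))
    have hy0 : 0 < y := lt_of_lt_of_le (lt_min ha hb) hy.1
    have e0 := ((h4 y).const_mul 6).div (hasDerivAt_pow 4 y) (by positivity)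
    have e1 := ((h3 y).const_mul 2).div (hasDerivAt_pow 3 y) (by positivity)
    have e2 := (h2 y).div (hasDerivAt_pow 2 y) (by positivity)
    have e3 := (h1 y).div (hasDerivAt_id y) hy0.ne'
    refine (((e0.add e1).add e2).add e3).congr_deriv ?_
    simp only [id]
    field_simp
    norm_num
    ring
  rw [intervalIntegral.integral_sub hi1 (hi2.const_mul 24), intervalIntegral.integral_const_mul]
    at key
  linarith

/-- short integrals -/
lemma short {S : ℝ} (hS : ∀ u, |w u| ≤ S) {a b : ℝ} (ha : 0 < a)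
    (hab : a ≤ b) : |∫ y in a..b, U4 w y / y ^ 5| ≤ S / 12 * ((b - a) / a) := by
  have hS0 : 0 ≤ S := (abs_nonneg _).trans (hS 0)
  have := intervalIntegral.norm_integral_le_of_norm_le_const (a := a) (b := b)
    (f := fun y => U4 w y / y ^ 5) (C := S / 12 / a) (fun y hy => by
      rw [Set.uIoc_of_le hab] at hy
      have hy0 : 0 < y := ha.trans hy.1
      rw [Real.norm_eq_abs, abs_div, abs_of_pos (by positivity : 0 < y ^ 5),
        div_le_div_iff₀ (by positivity) ha]
      have := U4_bound hS hy0.le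
      calc |U4 w y| * a ≤ (S / 12 * y ^ 4) * a := mul_le_mul_of_nonneg_right this ha.le
        _ ≤ (S / 12 * y ^ 4) * y := mul_le_mul_of_nonneg_left hy.1.le (by positivity)
        _ = S / 12 * y ^ 5 := by ring)
  rw [Real.norm_eq_abs, abs_of_nonneg (sub_nonneg.2 hab)] at this
  refine this.trans (le_of_eq ?_)
  field_simp

lemma scale (c : ℝ) (hc : 0 < c) {a b : ℝ} :
    (∫ t in a..b, U4 w (c * t) / t ^ 5) = c ^ 4 * ∫ y in (c * a)..(c * b), U4 w y / y ^ 5 := by
  have h := intervalIntegral.integral_comp_mul_left (a := a) (b := b)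
    (fun y => U4 w y / y ^ 5) hc.ne'
  have e : (fun t => U4 w (c * t) / t ^ 5) = fun t => c ^ 5 * (U4 w (c * t) / (c * t) ^ 5) := by
    funext t
    by_cases ht : t = 0
    · simp [ht]
    · field_simp
  rw [e, intervalIntegral.integral_const_mul, h, smul_eq_mul]
  field_simp

/-- a function of the form of the single scale forms is integrable -/
lemma Ac_cont (hw : Continuous w) (o : ℝ) {a b : ℝ} (ha : 0 < a) (hb : 0 < b) :
    IntervalIntegrable (fun t => Ac o (V4 w) t / t) volume a b := by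
  have hV := V4_cont hw
  have h : IntervalIntegrable (fun t => (V4 w (t * (o - 2)) - 8 * V4 w (t * (o - 3 / 2))
      + 28 * V4 w (t * (o - 1)) - 56 * V4 w (t * (o - 1 / 2))
      + 70 * V4 w (t * o) - 56 * V4 w (t * (o + 1 / 2)) + 28 * V4 w (t * (o + 1))
      - 8 * V4 w (t * (o + 3 / 2)) + V4 w (t * (o + 2))) / t ^ 5) volume a b :=
    ii_div (by fun_prop) 5 ha hb
  refine h.congr_ae ?_
  filter_upwards [ae_restrict_mem measurableSet_uIoc] with t ht
  have ht0 : 0 < t := lt_trans (lt_min ha hb) ht.1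
  unfold Ac
  field_simp

/-- the integral of the difference -/
lemma int_diff (hw : Continuous w) {a b : ℝ} (ha : 0 < a) (hb : 0 < b) :
    (∫ t in a..b, (Ac 1 (V4 w) t - Ac (-1) (V4 w) t) / t) =
      69 * (∫ y in a..b, U4 w y / y ^ 5)
      - 3 * (∫ y in (1 / 2 * a)..(1 / 2 * b), U4 w y / y ^ 5)
      - 567 / 2 * (∫ y in (3 / 2 * a)..(3 / 2 * b), U4 w y / y ^ 5)
      + 448 * (∫ y in (2 * a)..(2 * b), U4 w y / y ^ 5)
      - 625 / 2 * (∫ y in (5 / 2 * a)..(5 / 2 * b), U4 w y / y ^ 5)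
      + 81 * (∫ y in (3 * a)..(3 * b), U4 w y / y ^ 5) := by
  have hU := U4_cont hw
  have e : (∫ t in a..b, (Ac 1 (V4 w) t - Ac (-1) (V4 w) t) / t)
      = ∫ t in a..b, (69 * (U4 w t / t ^ 5) - 48 * (U4 w (1 / 2 * t) / t ^ 5)
        - 56 * (U4 w (3 / 2 * t) / t ^ 5) + 28 * (U4 w (2 * t) / t ^ 5)
        - 8 * (U4 w (5 / 2 * t) / t ^ 5) + U4 w (3 * t) / t ^ 5) := by
    refine intervalIntegral.integral_congr fun t ht => ?_
    have ht0 : 0 < t := lt_of_lt_of_le (lt_min ha hb) ht.1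
    show (Ac 1 (V4 w) t - Ac (-1) (V4 w) t) / t = _
    rw [Ac_diff hw t, show t / 2 = 1 / 2 * t by ring]
    field_simp
  have i1 : IntervalIntegrable (fun t => U4 w t / t ^ 5) volume a b := ii_div hU 5 ha hb
  have ic : ∀ c : ℝ, IntervalIntegrable (fun t => U4 w (c * t) / t ^ 5) volume a b := fun c =>
    ii_div (by fun_prop) 5 ha hb
  have j1 := (i1.const_mul 69).sub ((ic (1 / 2)).const_mul 48)
  have j2 := j1.sub ((ic (3 / 2)).const_mul 56)
  have j3 := j2.add ((ic 2).const_mul 28)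
  have j4 := j3.sub ((ic (5 / 2)).const_mul 8)
  rw [e, intervalIntegral.integral_add j4 (ic 3), intervalIntegral.integral_sub j3
    ((ic (5 / 2)).const_mul 8), intervalIntegral.integral_add j2 ((ic 2).const_mul 28),
    intervalIntegral.integral_sub j1 ((ic (3 / 2)).const_mul 56),
    intervalIntegral.integral_sub (i1.const_mul 69) ((ic (1 / 2)).const_mul 48),
    intervalIntegral.integral_const_mul, intervalIntegral.integral_const_mul,
    intervalIntegral.integral_const_mul, intervalIntegral.integral_const_mul,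
    intervalIntegral.integral_const_mul,
    scale (1 / 2) (by norm_num), scale (3 / 2) (by norm_num), scale 2 (by norm_num),
    scale (5 / 2) (by norm_num), scale 3 (by norm_num)]
  ring

/-- the dyadic decomposition -/
lemma dyadic (hw : Continuous w) {o : ℝ} {n : ℕ} {K : ℝ}
    (hK : ∀ t : ℝ, 0 < t → ∑ k ∈ Finset.Icc 1 n, |Ac o (V4 w) (2 ^ k * t)| ≤ K)
    {a b : ℝ} (ha : 0 < a) (hab : a ≤ b) (hb' : b ≤ 2 ^ n * a) :
    |∫ t in a..b, Ac o (V4 w) t / t| ≤ K := by
  have hb : 0 < b := ha.trans_le hab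
  set g : ℝ → ℝ := fun t => |Ac o (V4 w) t / t| with hg
  have hgi : ∀ {a b : ℝ}, 0 < a → 0 < b → IntervalIntegrable g volume a b :=
    fun ha hb => (Ac_cont hw o ha hb).abs
  have h1 : |∫ t in a..b, Ac o (V4 w) t / t| ≤ ∫ t in a..b, g t :=
    intervalIntegral.abs_integral_le_integral_abs hab
  have h2 : (∫ t in a..b, g t) ≤ ∫ t in a..(2 ^ n * a), g t := by
    rw [← intervalIntegral.integral_add_adjacent_intervals (hgi ha hb)
      (hgi hb (hb.trans_le hb'))]
    have : 0 ≤ ∫ t in b..(2 ^ n * a), g t :=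
      intervalIntegral.integral_nonneg hb' fun t _ => abs_nonneg _
    linarith
  have h3 : (∫ t in a..(2 ^ n * a), g t)
      = ∑ j ∈ Finset.range n, ∫ t in (2 ^ j * a)..(2 ^ (j + 1) * a), g t := by
    rw [intervalIntegral.sum_integral_adjacent_intervals (a := fun j => (2 : ℝ) ^ j * a)
      (fun k _ => hgi (by positivity) (by positivity))]
    norm_num
  have h4 : ∀ j : ℕ, (∫ t in (2 ^ j * a)..(2 ^ (j + 1) * a), g t)
      = ∫ t in (a / 2)..a, |Ac o (V4 w) (2 ^ (j + 1) * t)| / t := by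
    intro j
    have h := intervalIntegral.integral_comp_mul_left (a := a / 2) (b := a) g
      (show (2 : ℝ) ^ (j + 1) ≠ 0 by positivity)
    have e : (∫ t in (a / 2)..a, |Ac o (V4 w) (2 ^ (j + 1) * t)| / t)
        = ∫ t in (a / 2)..a, 2 ^ (j + 1) * g (2 ^ (j + 1) * t) := by
      refine intervalIntegral.integral_congr fun t ht => ?_
      rw [Set.uIcc_of_le (by linarith)] at ht
      have ht0 : 0 < t := lt_of_lt_of_le (by positivity) ht.1
      show |Ac o (V4 w) (2 ^ (j + 1) * t)| / t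
        = 2 ^ (j + 1) * |Ac o (V4 w) (2 ^ (j + 1) * t) / (2 ^ (j + 1) * t)|
      rw [abs_div, abs_of_pos (show 0 < 2 ^ (j + 1) * t by positivity)]
      field_simp
    rw [e, intervalIntegral.integral_const_mul, h, smul_eq_mul, ← mul_assoc,
      mul_inv_cancel₀ (by positivity), one_mul]
    ring_nf
  have i4 : ∀ j : ℕ, IntervalIntegrable (fun t => |Ac o (V4 w) (2 ^ (j + 1) * t)| / t)
      volume (a / 2) a := by
    intro j
    have h : IntervalIntegrable (fun t => Ac o (V4 w) (2 ^ (j + 1) * t) / (2 ^ (j + 1) * t))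
        volume (a / 2) a := by
      have := (Ac_cont hw o (a := 2 ^ (j + 1) * (a / 2)) (b := 2 ^ (j + 1) * a) (by positivity)
        (by positivity)).comp_mul_left (c := (2 : ℝ) ^ (j + 1))
      simpa [mul_div_cancel_left₀] using this
    refine ((h.abs).const_mul ((2 : ℝ) ^ (j + 1))).congr_ae ?_
    filter_upwards [ae_restrict_mem measurableSet_uIoc] with t ht
    rw [Set.uIoc_of_le (by linarith)] at ht
    have ht0 : 0 < t := lt_trans (by positivity) ht.1
    rw [abs_div, abs_of_pos (show 0 < 2 ^ (j + 1) * t by positivity)]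
    field_simp
  have hK0 : 0 ≤ K := le_trans (Finset.sum_nonneg fun _ _ => abs_nonneg _) (hK 1 one_pos)
  have hshift : ∀ F : ℕ → ℝ, ∑ j ∈ Finset.range n, F (j + 1) = ∑ k ∈ Finset.Icc 1 n, F k := by
    intro F
    rw [Finset.range_eq_Ico, Finset.sum_Ico_add' F 0 n 1]
    congr 1
  have h5 : (∑ j ∈ Finset.range n, ∫ t in (a / 2)..a, |Ac o (V4 w) (2 ^ (j + 1) * t)| / t)
      ≤ ∫ _ in (a / 2)..a, K / (a / 2) := by
    rw [← intervalIntegral.integral_finsetSum (fun j _ => i4 j)]
    have isum : IntervalIntegrable (fun t => ∑ j ∈ Finset.range n,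
        |Ac o (V4 w) (2 ^ (j + 1) * t)| / t) volume (a / 2) a := by
      have := IntervalIntegrable.sum (Finset.range n) (fun j _ => i4 j)
      refine this.congr_ae (ae_of_all _ fun t => ?_)
      simp only [Finset.sum_apply]
    refine intervalIntegral.integral_mono_on (by linarith) isum intervalIntegrable_const
      fun t ht => ?_
    have ht0 : 0 < t := lt_of_lt_of_le (by positivity) ht.1
    rw [← Finset.sum_div, hshift fun k => |Ac o (V4 w) (2 ^ k * t)|]
    exact div_le_div₀ hK0 (hK t ht0) (by positivity) ht.1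
  have h6 : (∫ _ in (a / 2)..a, K / (a / 2)) = K := by
    rw [intervalIntegral.integral_const, smul_eq_mul]
    field_simp
    ring
  calc |∫ t in a..b, Ac o (V4 w) t / t| ≤ ∫ t in a..b, g t := h1
    _ ≤ ∫ t in a..(2 ^ n * a), g t := h2
    _ = ∑ j ∈ Finset.range n, ∫ t in (a / 2)..a, |Ac o (V4 w) (2 ^ (j + 1) * t)| / t := by
        rw [h3]; exact Finset.sum_congr rfl fun j _ => h4 j
    _ ≤ K := h6 ▸ h5

end

/-- **CAL** with four Haar functions -/
theorem cal4 : ∃ C : ℝ, 0 ≤ C ∧ ∀ (w : ℝ → ℝ), Continuous w → ∀ (S K : ℝ), (∀ u, |w u| ≤ S) →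
    ∀ n : ℕ, (∀ t : ℝ, 0 < t → ∑ k ∈ Finset.Icc 1 n, |Ac 1 (V4 w) (2 ^ k * t)| ≤ K) →
    (∀ t : ℝ, 0 < t → ∑ k ∈ Finset.Icc 1 n, |Ac (-1) (V4 w) (2 ^ k * t)| ≤ K) →
    ∀ ε R : ℝ, 0 < ε → ε < R → R ≤ 2 ^ n * ε →
      |∫ u in ε..R, (w u - w (-u)) / u| ≤ C * (K + S) := by
  refine ⟨100000, by norm_num, fun w hw S K hS n hK1 hK2 ε R hε hεR hRn => ?_⟩
  have hR : 0 < R := hε.trans hεR
  have hS0 : 0 ≤ S := (abs_nonneg _).trans (hS 0)
  have hK0 : 0 ≤ K := le_trans (Finset.sum_nonneg fun _ _ => abs_nonneg _) (hK1 1 one_pos)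
  have hA1 := dyadic hw hK1 hε hεR.le hRn
  have hA2 := dyadic hw hK2 hε hεR.le hRn
  have hU := U4_cont hw
  have ii : ∀ {a b : ℝ}, 0 < a → 0 < b → IntervalIntegrable (fun y => U4 w y / y ^ 5) volume a b :=
    fun ha hb => ii_div hU 5 ha hb
  -- dilated integrals
  have big : ∀ c : ℝ, 1 ≤ c → c ≤ 3 → |(∫ y in (c * ε)..(c * R), U4 w y / y ^ 5)
      - ∫ y in ε..R, U4 w y / y ^ 5| ≤ S := by
    intro c hc1 hc3
    have a1 := intervalIntegral.integral_add_adjacent_intervals
      (ii hε (show 0 < c * ε by positivity))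
      (ii (show 0 < c * ε by positivity) (show 0 < c * R by positivity))
    have a2 := intervalIntegral.integral_add_adjacent_intervals
      (ii hε hR) (ii hR (show 0 < c * R by positivity))
    have b1 := short hS hε (show ε ≤ c * ε by nlinarith)
    have b2 := short hS hR (show R ≤ c * R by nlinarith)
    have c1 : (c * ε - ε) / ε = c - 1 := by field_simp
    have c2 : (c * R - R) / R = c - 1 := by field_simp
    rw [c1] at b1
    rw [c2] at b2
    have hc : S / 12 * (c - 1) ≤ S / 12 * 2 := by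
      refine mul_le_mul_of_nonneg_left (by linarith) (by positivity)
    rw [abs_le] at *
    constructor <;> linarith [b1.1, b1.2, b2.1, b2.2]
  have e2 : |(∫ y in (1 / 2 * ε)..(1 / 2 * R), U4 w y / y ^ 5)
      - ∫ y in ε..R, U4 w y / y ^ 5| ≤ S := by
    have a1 := intervalIntegral.integral_add_adjacent_intervals
      (ii (show 0 < 1 / 2 * ε by positivity) (show 0 < 1 / 2 * R by positivity))
      (ii (show 0 < 1 / 2 * R by positivity) hR)
    have a2 := intervalIntegral.integral_add_adjacent_intervals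
      (ii (show 0 < 1 / 2 * ε by positivity) hε) (ii hε hR)
    have b1 := short hS (show 0 < 1 / 2 * ε by positivity) (show 1 / 2 * ε ≤ ε by linarith)
    have b2 := short hS (show 0 < 1 / 2 * R by positivity) (show 1 / 2 * R ≤ R by linarith)
    have c1 : (ε - 1 / 2 * ε) / (1 / 2 * ε) = 1 := by field_simp; ring
    have c2 : (R - 1 / 2 * R) / (1 / 2 * R) = 1 := by field_simp; ring
    rw [c1] at b1
    rw [c2] at b2
    rw [abs_le] at *
    constructor <;> linarith [b1.1, b1.2, b2.1, b2.2]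
  have e3 := big (3 / 2) (by norm_num) (by norm_num)
  have e4 := big 2 (by norm_num) (by norm_num)
  have e5 := big (5 / 2) (by norm_num) (by norm_num)
  have e6 := big 3 (by norm_num) (by norm_num)
  have hp := parts hw hε hR
  have hi := int_diff hw hε hR
  have hsub : (∫ t in ε..R, (Ac 1 (V4 w) t - Ac (-1) (V4 w) t) / t)
      = (∫ t in ε..R, Ac 1 (V4 w) t / t) - ∫ t in ε..R, Ac (-1) (V4 w) t / t := by
    rw [← intervalIntegral.integral_sub (Ac_cont hw 1 hε hR) (Ac_cont hw (-1) hε hR)]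
    refine intervalIntegral.integral_congr fun t _ => ?_
    show (Ac 1 (V4 w) t - Ac (-1) (V4 w) t) / t = Ac 1 (V4 w) t / t - Ac (-1) (V4 w) t / t
    ring
  rw [hsub] at hi
  have q : ∀ y : ℝ, 0 < y → |6 * U4 w y / y ^ 4 + 2 * prim (prim (prim (od w))) y / y ^ 3
      + prim (prim (od w)) y / y ^ 2 + prim (od w) y / y| ≤ 5 * S := by
    intro y hy
    have k0 : |6 * U4 w y / y ^ 4| ≤ 1 / 2 * S := by
      rw [abs_div, abs_mul, abs_of_pos (by positivity : 0 < y ^ 4), div_le_iff₀ (by positivity),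
        abs_of_pos (by norm_num : (0 : ℝ) < 6)]
      have := U4_bound hS hy.le
      linarith
    have k1 : |2 * prim (prim (prim (od w))) y / y ^ 3| ≤ 2 / 3 * S := by
      rw [abs_div, abs_mul, abs_of_pos (by positivity : 0 < y ^ 3), div_le_iff₀ (by positivity),
        abs_of_pos (by norm_num : (0 : ℝ) < 2)]
      have := U3_bound hS hy.le
      linarith
    have k2 : |prim (prim (od w)) y / y ^ 2| ≤ S := by
      rw [abs_div, abs_of_pos (by positivity : 0 < y ^ 2), div_le_iff₀ (by positivity)]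
      exact U2_bound hS hy.le
    have k3 : |prim (od w) y / y| ≤ 2 * S := by
      rw [abs_div, abs_of_pos hy, div_le_iff₀ hy]
      exact U1_bound hS hy.le
    rw [abs_le] at *
    constructor <;> linarith [k0.1, k0.2, k1.1, k1.2, k2.1, k2.2, k3.1, k3.2]
  have q1 := q R hR
  have q2 := q ε hε
  have e0 : (∫ u in ε..R, (w u - w (-u)) / u) = ∫ y in ε..R, od w y / y := rfl
  rw [e0]
  rw [abs_le] at *
  constructor <;> linarith [hA1.1, hA1.2, hA2.1, hA2.2, e2.1, e2.2, e3.1, e3.2, e4.1, e4.2,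
    e5.1, e5.2, e6.1, e6.2, q1.1, q1.2, q2.1, q2.2]

end Vale.Agent.P141.PL.H620
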