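import Vale.Agent.P141.PL.H620.Disc
import Vale.Agent.P141.PL.H620.Cal

/-!
# P141, B10 (b3): averaging the sampled kernel over `[0,1]^4` gives the exact single scale form
-/

namespace Vale.Agent.P141.PL.H620

open Finset MeasureTheory

/-- averaging over `q ∈ [0,1]` -/
theorem av1 {ι κ : Type*} (s : Finset ι) (t : ι → Finset κ) (α β : ι → κ → ℝ) {g G : ℝ → ℝ}
    (hg : Continuous g) (hG : ∀ y, HasDerivAt G (g y) y) {K : ℝ}
    (h : ∀ c, ∑ i ∈ s, |∑ x ∈ t i, α i x * g (c + β i x)| ≤ K) (c : ℝ) :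
    ∑ i ∈ s, |∑ x ∈ t i, α i x * (G (c + β i x + 1) - G (c + β i x))| ≤ K := by
  have hI : ∀ b : ℝ, G (b + 1) - G b = ∫ q in (0 : ℝ)..1, g (b + q) := by
    intro b
    have hd : ∀ q : ℝ, HasDerivAt (fun q => G (b + q)) (g (b + q)) q := fun q =>
      (hG (b + q)).comp_const_add b q
    rw [intervalIntegral.integral_eq_sub_of_hasDerivAt (fun q _ => hd q)
      ((by fun_prop : Continuous fun q => g (b + q)).intervalIntegrable _ _), add_zero]
  have hcx : ∀ i x, IntervalIntegrable (fun q => α i x * g (c + β i x + q)) volume 0 1 :=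
    fun i x => (by fun_prop : Continuous fun q => α i x * g (c + β i x + q)).intervalIntegrable _ _
  have hci : ∀ i, Continuous fun q => ∑ x ∈ t i, α i x * g (c + β i x + q) := fun i =>
    continuous_finsetSum _ fun x _ => by fun_prop
  have h1 : ∀ i ∈ s, |∑ x ∈ t i, α i x * (G (c + β i x + 1) - G (c + β i x))|
      ≤ ∫ q in (0 : ℝ)..1, |∑ x ∈ t i, α i x * g (c + β i x + q)| := by
    intro i _
    have e : ∑ x ∈ t i, α i x * (G (c + β i x + 1) - G (c + β i x))
        = ∫ q in (0 : ℝ)..1, ∑ x ∈ t i, α i x * g (c + β i x + q) := by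
      rw [intervalIntegral.integral_finsetSum fun x _ => hcx i x]
      refine Finset.sum_congr rfl fun x _ => ?_
      rw [hI, intervalIntegral.integral_const_mul]
    rw [e]
    exact intervalIntegral.abs_integral_le_integral_abs zero_le_one
  refine (Finset.sum_le_sum h1).trans ?_
  rw [← intervalIntegral.integral_finsetSum fun i _ => (hci i).abs.intervalIntegrable _ _]
  have h2 : (∫ _ in (0 : ℝ)..1, K) = K := by simp
  rw [← h2]
  refine intervalIntegral.integral_mono_on zero_le_one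
    ((continuous_finsetSum _ fun i _ => (hci i).abs).intervalIntegrable _ _)
    intervalIntegrable_const fun q _ => ?_
  have := h (c + q)
  refine le_trans (le_of_eq ?_) this
  refine Finset.sum_congr rfl fun i _ => ?_
  congr 1
  refine Finset.sum_congr rfl fun x _ => ?_
  congr 2
  ring

/-- forward difference -/
def df (g : ℝ → ℝ) (c : ℝ) : ℝ := g (c + 1) - g c

theorem df_deriv {G g : ℝ → ℝ} (h : ∀ y, HasDerivAt G (g y) y) (y : ℝ) :
    HasDerivAt (df G) (df g y) y :=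
  ((h (y + 1)).comp_add_const y 1).sub (h y)

theorem df_cont {g : ℝ → ℝ} (h : Continuous g) : Continuous (df g) := by unfold df; fun_prop

/-- four averages -/
theorem av4 {ι κ : Type*} (s : Finset ι) (t : ι → Finset κ) (α β : ι → κ → ℝ) {w : ℝ → ℝ}
    (hw : Continuous w) {K : ℝ} (h : ∀ c, ∑ i ∈ s, |∑ x ∈ t i, α i x * w (c + β i x)| ≤ K) (c : ℝ) :
    ∑ i ∈ s, |∑ x ∈ t i, α i x * df (df (df (df (V4 w)))) (c + β i x)| ≤ K := by
  have c1 := prim_cont hw
  have c2 := prim_cont c1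
  have c3 := prim_cont c2
  have d1 := fun y => prim_hasDeriv hw y
  have d2 := fun y => prim_hasDeriv c1 y
  have d3 := fun y => prim_hasDeriv c2 y
  have d4 : ∀ y, HasDerivAt (V4 w) (prim (prim (prim w)) y) y := fun y => prim_hasDeriv c3 y
  have h1 : ∀ c, ∑ i ∈ s, |∑ x ∈ t i, α i x * df (prim w) (c + β i x)| ≤ K :=
    av1 s t α β hw d1 h
  have h2 : ∀ c, ∑ i ∈ s, |∑ x ∈ t i, α i x * df (df (prim (prim w))) (c + β i x)| ≤ K :=
    av1 s t α β (df_cont c1) (df_deriv d2) h1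
  have h3 : ∀ c, ∑ i ∈ s, |∑ x ∈ t i, α i x * df (df (df (prim (prim (prim w))))) (c + β i x)|
      ≤ K := av1 s t α β (df_cont (df_cont c2)) (df_deriv (df_deriv d3)) h2
  exact av1 s t α β (df_cont (df_cont (df_cont c3))) (df_deriv (df_deriv (df_deriv d4))) h3 c

/-- second difference with step `2^k/2`, up to the sign -/
noncomputable def d2 (k : ℕ) (g : ℝ → ℝ) (c : ℝ) : ℝ := 2 * g (c + 2 ^ k / 2) - g c - g (c + 2 ^ k)

theorem tele (g : ℝ → ℝ) (c : ℝ) (n : ℕ) : ∑ x ∈ range n, df g (c + x) = g (c + n) - g c := by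
  induction n with
  | zero => simp
  | succ n ih =>
    rw [Finset.sum_range_succ, ih, df]
    push_cast
    rw [show c + ((n : ℝ) + 1) = c + n + 1 by ring]
    ring

theorem sg_sum {k : ℕ} (hk : 1 ≤ k) (g : ℝ → ℝ) (c : ℝ) :
    ∑ x ∈ range (2 ^ k), sg k x * df g (c + x) = d2 k g c := by
  obtain ⟨m, rfl⟩ : ∃ m, k = m + 1 := ⟨k - 1, by omega⟩
  rw [pow_succ, mul_two, Finset.sum_range_add]
  have e1 : ∀ x ∈ range (2 ^ m), sg (m + 1) x * df g (c + x) = df g (c + x) := by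
    intro x hx
    rw [Finset.mem_range] at hx
    have : 2 * x < 2 ^ (m + 1) := by rw [pow_succ]; omega
    rw [sg, if_pos this, one_mul]
  have e2 : ∀ x ∈ range (2 ^ m), sg (m + 1) (2 ^ m + x) * df g (c + ((2 ^ m + x : ℕ) : ℝ))
      = -df g (c + 2 ^ m + x) := by
    intro x _
    have : ¬ 2 * (2 ^ m + x) < 2 ^ (m + 1) := by rw [pow_succ]; omega
    rw [sg, if_neg this, neg_one_mul]
    push_cast
    rw [add_assoc]
  rw [Finset.sum_congr rfl e1, Finset.sum_congr rfl e2, Finset.sum_neg_distrib, tele, tele, d2]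
  push_cast
  rw [show c + (2 : ℝ) ^ (m + 1) / 2 = c + 2 ^ m by ring,
    show c + (2 : ℝ) ^ (m + 1) = c + 2 ^ m + 2 ^ m by ring]
  ring

/-- sums over the box as iterated sums -/
theorem sum_pts (k : ℕ) (F : (Fin 4 → ℕ) → ℝ) : ∑ x ∈ pts k, F x
    = ∑ a ∈ range (2 ^ k), ∑ b ∈ range (2 ^ k), ∑ c ∈ range (2 ^ k), ∑ e ∈ range (2 ^ k),
      F ![a, b, c, e] := by
  have h1 : ∑ x ∈ pts k, F x = ∑ p ∈ range (2 ^ k) ×ˢ range (2 ^ k) ×ˢ range (2 ^ k) ×ˢ range (2 ^ k),
      F ![p.1, p.2.1, p.2.2.1, p.2.2.2] := by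
    refine Finset.sum_bij' (fun x _ => (x 0, x 1, x 2, x 3))
      (fun p _ => ![p.1, p.2.1, p.2.2.1, p.2.2.2]) ?_ ?_ ?_ ?_ ?_
    · intro x hx
      rw [pts, Fintype.mem_piFinset] at hx
      simp only [Finset.mem_product]
      exact ⟨hx 0, hx 1, hx 2, hx 3⟩
    · intro p hp
      simp only [Finset.mem_product] at hp
      rw [pts, Fintype.mem_piFinset]
      intro i
      fin_cases i
      · exact hp.1
      · exact hp.2.1
      · exact hp.2.2.1
      · exact hp.2.2.2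
    · intro x _
      funext i
      fin_cases i <;> rfl
    · intro p _
      rfl
    · intro x _
      congr 1
      funext i
      fin_cases i <;> rfl
  rw [h1, Finset.sum_product]
  refine Finset.sum_congr rfl fun a _ => ?_
  rw [Finset.sum_product]
  refine Finset.sum_congr rfl fun b _ => ?_
  rw [Finset.sum_product]

theorem df_d2 (k : ℕ) (g : ℝ → ℝ) : df (d2 k g) = d2 k (df g) := by
  funext c
  simp only [df, d2]
  rw [show c + 1 + (2 : ℝ) ^ k / 2 = c + 2 ^ k / 2 + 1 by ring,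
    show c + 1 + (2 : ℝ) ^ k = c + 2 ^ k + 1 by ring]
  ring

/-- the kernel sum over a box is an eighth difference -/
theorem box_sum {k : ℕ} (hk : 1 ≤ k) (V : ℝ → ℝ) (c : ℝ) :
    ∑ x ∈ pts k, (∏ i, sg k (x i)) * df (df (df (df V))) (c + ∑ i, (x i : ℝ))
      = d2 k (d2 k (d2 k (d2 k V))) c := by
  rw [sum_pts]
  have e : ∀ a b c' e' : ℕ, (∏ i, sg k ((![a, b, c', e'] : Fin 4 → ℕ) i)) *
      df (df (df (df V))) (c + ∑ i, (((![a, b, c', e'] : Fin 4 → ℕ) i : ℕ) : ℝ))
      = sg k a * (sg k b * (sg k c' * (sg k e' * df (df (df (df V))) (c + a + b + c' + e')))) := by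
    intro a b c' e'
    simp only [Fin.prod_univ_four, Fin.sum_univ_four, Matrix.cons_val_zero, Matrix.cons_val_one,
      Matrix.cons_val]
    rw [show c + ((a : ℝ) + b + c' + e') = c + a + b + c' + e' by ring]
    ring
  simp only [e]
  simp only [← Finset.mul_sum]
  have s1 : ∀ g : ℝ → ℝ, ∀ y : ℝ, ∑ x ∈ range (2 ^ k), sg k x * df g (y + x) = d2 k g y :=
    fun g y => sg_sum hk g y
  simp only [s1]
  simp only [← df_d2, s1]

/-- explicit eighth difference -/
theorem d2_four (k : ℕ) (V : ℝ → ℝ) (o : ℤ) :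
    ((16 : ℝ) ^ k)⁻¹ * d2 k (d2 k (d2 k (d2 k V))) (2 ^ k * (o - 2)) = Ac o V (2 ^ k) := by
  have h16 : (16 : ℝ) ^ k = (2 ^ k) ^ 4 := by
    rw [← pow_mul, mul_comm k 4, pow_mul]; norm_num
  unfold Ac
  rw [h16]
  set t : ℝ := 2 ^ k with ht
  have hd : ∀ g c, d2 k g c = 2 * g (c + t / 2) - g c - g (c + t) := fun g c => rfl
  obtain ⟨h, hh⟩ : ∃ h : ℝ, t = 2 * h := ⟨t / 2, by ring⟩
  rw [div_eq_inv_mul]
  congr 1
  simp only [hd, hh]
  ring_nf

end Vale.Agent.P141.PL.H620
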