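import Vale.Agent.P141.PL.H620.Line

/-!
# P141, B10 (b5): the correlation is continuous
-/

namespace Vale.Agent.P141.PL.H620

open Finset MeasureTheory

theorem prod4_sub {a b : Fin 4 → ℝ} {B : ℝ} (ha : ∀ j, |a j| ≤ B) (hb : ∀ j, |b j| ≤ B) :
    |∏ j, a j - ∏ j, b j| ≤ B ^ 3 * ∑ j, |a j - b j| := by
  have hB : 0 ≤ B := (abs_nonneg _).trans (ha 0)
  rw [Fin.prod_univ_four, Fin.prod_univ_four, Fin.sum_univ_four]
  have e : a 0 * a 1 * a 2 * a 3 - b 0 * b 1 * b 2 * b 3
      = (a 0 - b 0) * (a 1 * a 2 * a 3) + b 0 * (a 1 - b 1) * (a 2 * a 3)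
        + b 0 * b 1 * (a 2 - b 2) * a 3 + b 0 * b 1 * b 2 * (a 3 - b 3) := by ring
  rw [e]
  have t1 : |(a 0 - b 0) * (a 1 * a 2 * a 3)| ≤ B ^ 3 * |a 0 - b 0| := by
    rw [abs_mul, abs_mul, abs_mul]
    calc |a 0 - b 0| * (|a 1| * |a 2| * |a 3|) ≤ |a 0 - b 0| * (B * B * B) := by
          gcongr
          · exact ha 1
          · exact ha 2
          · exact ha 3
      _ = _ := by ring
  have t2 : |b 0 * (a 1 - b 1) * (a 2 * a 3)| ≤ B ^ 3 * |a 1 - b 1| := by
    rw [abs_mul, abs_mul, abs_mul]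
    calc |b 0| * |a 1 - b 1| * (|a 2| * |a 3|) ≤ B * |a 1 - b 1| * (B * B) := by
          gcongr
          · exact hb 0
          · exact ha 2
          · exact ha 3
      _ = _ := by ring
  have t3 : |b 0 * b 1 * (a 2 - b 2) * a 3| ≤ B ^ 3 * |a 2 - b 2| := by
    rw [abs_mul, abs_mul, abs_mul]
    calc |b 0| * |b 1| * |a 2 - b 2| * |a 3| ≤ B * B * |a 2 - b 2| * B := by
          gcongr
          · exact hb 0
          · exact hb 1
          · exact ha 3
      _ = _ := by ring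
  have t4 : |b 0 * b 1 * b 2 * (a 3 - b 3)| ≤ B ^ 3 * |a 3 - b 3| := by
    rw [abs_mul, abs_mul, abs_mul]
    calc |b 0| * |b 1| * |b 2| * |a 3 - b 3| ≤ B * B * B * |a 3 - b 3| := by
          gcongr
          · exact hb 0
          · exact hb 1
          · exact hb 2
      _ = _ := by ring
  have s1 := abs_add_le ((a 0 - b 0) * (a 1 * a 2 * a 3) + b 0 * (a 1 - b 1) * (a 2 * a 3)
        + b 0 * b 1 * (a 2 - b 2) * a 3) (b 0 * b 1 * b 2 * (a 3 - b 3))
  have s2 := abs_add_le ((a 0 - b 0) * (a 1 * a 2 * a 3) + b 0 * (a 1 - b 1) * (a 2 * a 3))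
    (b 0 * b 1 * (a 2 - b 2) * a 3)
  have s3 := abs_add_le ((a 0 - b 0) * (a 1 * a 2 * a 3)) (b 0 * (a 1 - b 1) * (a 2 * a 3))
  linarith

/-- continuous functions with compact support -/
theorem ww_cont_cc {g : Fin 4 → ℝ → ℝ} (hc : ∀ j, Continuous (g j))
    (hs : ∀ j, HasCompactSupport (g j)) : Continuous (ww g) := by
  have e : ww g = fun u => ∫ x in tsupport (g 0), ∏ j : Fin 4, g j (x - (j : ℕ) * u) := by
    funext u
    refine (setIntegral_eq_integral_of_forall_compl_eq_zero fun x hx => ?_).symm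
    refine Finset.prod_eq_zero (Finset.mem_univ (0 : Fin 4)) ?_
    simp only [Fin.val_zero, Nat.cast_zero, zero_mul, sub_zero]
    exact image_eq_zero_of_notMem_tsupport hx
  rw [e]
  refine continuous_parametric_integral_of_continuous (f := fun (u : ℝ) (x : ℝ) =>
    ∏ j : Fin 4, g j (x - (j : ℕ) * u)) ?_ (hs 0)
  unfold Function.uncurry
  exact continuous_finsetProd _ fun j _ => (hc j).comp (by fun_prop)

/-- approximation in `L¹` by bounded continuous functions of compact support -/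
theorem approx {f : ℝ → ℝ} (hf : RB f) {B : ℝ} (hB : ∀ x, |f x| ≤ B) {δ : ℝ} (hδ : 0 < δ) :
    ∃ g : ℝ → ℝ, Continuous g ∧ HasCompactSupport g ∧ (∀ x, |g x| ≤ B) ∧
      Integrable (fun x => |f x - g x|) ∧ ∫ x, |f x - g x| ≤ δ := by
  obtain ⟨g, hgs, hgi, hgc, hgI⟩ := hf.int.exists_hasCompactSupport_integral_sub_le hδ
  have hB0 : 0 ≤ B := (abs_nonneg _).trans (hB 0)
  set g' : ℝ → ℝ := fun x => max (-B) (min B (g x)) with hg'
  have hc : Continuous g' := by fun_prop
  have hle : ∀ x, |f x - g' x| ≤ |f x - g x| := by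
    intro x
    have h1 := abs_le.1 (hB x)
    simp only [hg']
    rcases le_total (g x) B with h2 | h2
    · rw [min_eq_right h2]
      rcases le_total (-B) (g x) with h3 | h3
      · rw [max_eq_right h3]
      · rw [max_eq_left h3, abs_of_nonneg (by linarith), abs_of_nonneg (by linarith)]
        linarith
    · rw [min_eq_left h2, max_eq_right (by linarith), abs_of_nonpos (by linarith),
        abs_of_nonpos (by linarith)]
      linarith
  have hcs : HasCompactSupport g' := by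
    refine hgs.mono' fun x hx => ?_
    refine subset_tsupport _ ?_
    intro h0
    refine hx ?_
    show max (-B) (min B (g x)) = 0
    rw [h0, min_eq_right hB0, max_eq_right (by linarith)]
  have hi : Integrable (fun x => |f x - g' x|) :=
    (hf.int.sub (hc.integrable_of_hasCompactSupport hcs)).abs
  refine ⟨g', hc, hcs, fun x => ?_, hi, ?_⟩
  · rw [abs_le]
    exact ⟨le_max_left _ _, max_le (by linarith) (min_le_left _ _)⟩
  · exact (integral_mono hi (hf.int.sub hgI).abs hle).trans hgi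

theorem ww_cont {f : Fin 4 → ℝ → ℝ} (hf : ∀ j, RB (f j)) : Continuous (ww f) := by
  choose B₀ hB₀ using fun j => (hf j).bdd
  set B : ℝ := ∑ j, |B₀ j| with hBdef
  have hB : ∀ j x, |f j x| ≤ B := by
    intro j x
    refine (hB₀ j x).trans ((le_abs_self _).trans ?_)
    exact Finset.single_le_sum (f := fun j => |B₀ j|) (fun j _ => abs_nonneg _) (Finset.mem_univ j)
  have hB0 : 0 ≤ B := (abs_nonneg _).trans (hB 0 0)
  refine continuous_of_uniform_approx_of_continuous fun U hU => ?_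
  obtain ⟨ε, hε, hεU⟩ := Metric.mem_uniformity_dist.1 hU
  have hδ : 0 < ε / (8 * (B ^ 3 + 1)) := by positivity
  choose g hgc hgs hgB hgi hgle using fun j => approx (hf j) (hB j) hδ
  refine ⟨ww g, ww_cont_cc hgc hgs, fun u => hεU ?_⟩
  have hfi : Integrable fun x => ∏ j : Fin 4, f j (x - (j : ℕ) * u) := by
    have : (fun x => ∏ j : Fin 4, f j (x - (j : ℕ) * u))
        = fun x => ∏ j : Fin 4, (fun x => f j (x + -((j : ℕ) * u))) x := by
      funext x
      simp only [sub_eq_add_neg]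
    rw [this]
    exact (RB.prod fun j => (hf j).shift _).int
  have hgRB : ∀ j, RB (g j) := by
    intro j
    obtain ⟨M, hM⟩ := (hgs j).isBounded.subset_closedBall (0 : ℝ)
    refine ⟨(hgc j).measurable, ⟨B, hgB j⟩, M, fun x hx => ?_⟩
    by_contra h0
    have := hM (subset_tsupport _ h0)
    rw [mem_closedBall_zero_iff, Real.norm_eq_abs] at this
    linarith
  have hgi' : Integrable fun x => ∏ j : Fin 4, g j (x - (j : ℕ) * u) := by
    have : (fun x => ∏ j : Fin 4, g j (x - (j : ℕ) * u))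
        = fun x => ∏ j : Fin 4, (fun x => g j (x + -((j : ℕ) * u))) x := by
      funext x
      simp only [sub_eq_add_neg]
    rw [this]
    exact (RB.prod fun j => (hgRB j).shift _).int
  have hsi : ∀ j : Fin 4, Integrable fun x => |f j (x - (j : ℕ) * u) - g j (x - (j : ℕ) * u)| :=
    fun j => (hgi j).comp_sub_right ((j : ℕ) * u)
  have hint : ∀ j : Fin 4, (∫ x, |f j (x - (j : ℕ) * u) - g j (x - (j : ℕ) * u)|)
      ≤ ε / (8 * (B ^ 3 + 1)) := fun j => by
    rw [integral_sub_right_eq_self (fun x => |f j x - g j x|) ((j : ℕ) * u)]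
    exact hgle j
  rw [Real.dist_eq]
  unfold ww
  rw [← integral_sub hfi hgi']
  refine (abs_integral_le_integral_abs).trans_lt ?_
  have h1 : (∫ x, |∏ j : Fin 4, f j (x - (j : ℕ) * u) - ∏ j : Fin 4, g j (x - (j : ℕ) * u)|)
      ≤ ∫ x, B ^ 3 * ∑ j : Fin 4, |f j (x - (j : ℕ) * u) - g j (x - (j : ℕ) * u)| := by
    refine integral_mono (hfi.sub hgi').abs ((integrable_finsetSum _ fun j _ => hsi j).const_mul _)
      fun x => ?_
    exact prod4_sub (a := fun j => f j (x - (j : ℕ) * u)) (b := fun j => g j (x - (j : ℕ) * u))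
      (fun j => hB j _) (fun j => hgB j _)
  refine h1.trans_lt ?_
  rw [integral_const_mul, integral_finsetSum _ fun j _ => hsi j]
  have h2 : (∑ j : Fin 4, ∫ x, |f j (x - (j : ℕ) * u) - g j (x - (j : ℕ) * u)|)
      ≤ 4 * (ε / (8 * (B ^ 3 + 1))) := by
    refine (Finset.sum_le_sum fun j _ => hint j).trans (le_of_eq ?_)
    simp
  have h3 : B ^ 3 * (4 * (ε / (8 * (B ^ 3 + 1)))) = (B ^ 3 / (B ^ 3 + 1)) * (ε / 2) := by
    field_simp
    ring
  have h4 : B ^ 3 / (B ^ 3 + 1) ≤ 1 := by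
    rw [div_le_one (by positivity)]
    linarith
  calc B ^ 3 * ∑ j : Fin 4, ∫ x, |f j (x - (j : ℕ) * u) - g j (x - (j : ℕ) * u)|
      ≤ B ^ 3 * (4 * (ε / (8 * (B ^ 3 + 1)))) := mul_le_mul_of_nonneg_left h2 (by positivity)
    _ = (B ^ 3 / (B ^ 3 + 1)) * (ε / 2) := h3
    _ ≤ 1 * (ε / 2) := mul_le_mul_of_nonneg_right h4 (by positivity)
    _ < ε := by linarith

end Vale.Agent.P141.PL.H620
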