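import Vale.Agent.P141.PL.H620.Real
import Vale.Agent.P141.H97.All

/-!
# P141, B10: the truncated form of four complex functions
-/

namespace Vale.Agent.P141.PL.H620

open MeasureTheory Set Filter Topology
open scoped ENNReal ComplexConjugate
open Vale.Agent.P141.H97

/-- complex function: measurable, bounded, of bounded support -/
structure CB (f : ℝ → ℂ) : Prop where
  meas : Measurable f
  bdd : ∃ B : ℝ, ∀ x, ‖f x‖ ≤ B
  supp : ∃ M : ℝ, ∀ x, M < |x| → f x = 0

theorem CB.nice {f : ℝ → ℂ} (h : CB f) : Nice f := by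
  obtain ⟨B, hB⟩ := h.bdd
  obtain ⟨M, hM⟩ := h.supp
  have h1 : Integrable ((Set.Icc (-M) M).indicator fun _ : ℝ => B) volume :=
    (integrable_indicator_iff measurableSet_Icc).2
      (integrableOn_const (by rw [Real.volume_Icc]; exact ENNReal.ofReal_ne_top))
  refine ⟨h.meas, h.bdd, h1.mono' h.meas.aestronglyMeasurable (ae_of_all _ fun x => ?_)⟩
  by_cases hx : |x| ≤ M
  · rw [Set.indicator_of_mem (show x ∈ Set.Icc (-M) M from abs_le.1 hx)]
    exact hB x
  · rw [hM x (not_le.1 hx), norm_zero]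
    exact Set.indicator_nonneg (fun _ _ => (norm_nonneg _).trans (hB 0)) _

theorem CB.of_simp {f : ℝ → ℂ} (h : Simp f) : CB f := by
  obtain ⟨δ, B, M, hδ, hb⟩ := h.bd
  refine ⟨h.meas, ⟨max B 0, fun x => ?_⟩, M, fun x hx => ?_⟩
  · rcases hb x with h0 | ⟨_, h1, _⟩
    · rw [h0, norm_zero]; exact le_max_right _ _
    · exact h1.trans (le_max_left _ _)
  · rcases hb x with h0 | ⟨_, _, h2⟩
    · exact h0
    · exact absurd h2 (not_le.2 hx)

theorem CB.re {f : ℝ → ℂ} (h : CB f) : RB fun x => (f x).re := by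
  obtain ⟨B, hB⟩ := h.bdd
  obtain ⟨M, hM⟩ := h.supp
  exact ⟨Complex.measurable_re.comp h.meas, ⟨B, fun x => (Complex.abs_re_le_norm _).trans (hB x)⟩,
    M, fun x hx => by rw [hM x hx, Complex.zero_re]⟩

theorem CB.im {f : ℝ → ℂ} (h : CB f) : RB fun x => (f x).im := by
  obtain ⟨B, hB⟩ := h.bdd
  obtain ⟨M, hM⟩ := h.supp
  exact ⟨Complex.measurable_im.comp h.meas, ⟨B, fun x => (Complex.abs_im_le_norm _).trans (hB x)⟩,
    M, fun x hx => by rw [hM x hx, Complex.zero_im]⟩

theorem RB.cb {f : ℝ → ℝ} (h : RB f) : CB fun x => (f x : ℂ) := by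
  obtain ⟨B, hB⟩ := h.bdd
  obtain ⟨M, hM⟩ := h.supp
  exact ⟨Complex.measurable_ofReal.comp h.meas, ⟨B, fun x => by
    rw [Complex.norm_real]; exact hB x⟩, M, fun x hx => by rw [hM x hx, Complex.ofReal_zero]⟩

/-- the form of real functions in terms of the correlation -/
theorem QF_real {ε R : ℝ} (hε : 0 < ε) (hR : ε < R) {f : Fin 4 → ℝ → ℝ} (hf : ∀ j, RB (f j)) :
    QF ε R sl (fun j x => (f j x : ℂ)) = ((∫ u in ε..R, (ww f u - ww f (-u)) / u : ℝ) : ℂ) := by
  have hi := qf_int (R := R) (b := sl) hε (f := fun j x => (f j x : ℂ)) fun j => (hf j).cb.nice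
  have hsl : ∀ j : Fin 4, sl j = ((j : ℕ) : ℝ) := by
    intro j
    fin_cases j <;> simp [sl]
  unfold QF
  rw [Measure.volume_eq_prod] at hi ⊢
  rw [integral_prod_symm _ hi]
  have e1 : ∀ t : ℝ, (∫ x, qf ε R sl (fun j x => (f j x : ℂ)) (x, t)) = H97.uu ε R t * (ww f t : ℂ) := by
    intro t
    have e0 : ∀ x : ℝ, qf ε R sl (fun j x => (f j x : ℂ)) (x, t)
        = H97.uu ε R t * ((∏ j : Fin 4, f j (x - (j : ℕ) * t) : ℝ) : ℂ) := by
      intro x
      unfold qf
      push_cast
      congr 1
      refine Finset.prod_congr rfl fun j _ => ?_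
      rw [hsl j]
    simp only [e0]
    rw [integral_const_mul, integral_complex_ofReal]
    rfl
  simp only [e1]
  -- the integral over `ε < |t| < R`
  have hwc := ww_cont hf
  have e2 : (∫ t, H97.uu ε R t * (ww f t : ℂ))
      = ∫ t in {t : ℝ | ε < |t| ∧ |t| < R}, ((ww f t / t : ℝ) : ℂ) := by
    rw [← integral_indicator (setA_meas ε R)]
    congr 1
    funext t
    unfold H97.uu
    by_cases ht : t ∈ {t : ℝ | ε < |t| ∧ |t| < R}
    · rw [indicator_of_mem ht, indicator_of_mem ht]
      push_cast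
      rw [div_eq_mul_inv, mul_comm]
    · rw [indicator_of_notMem ht, indicator_of_notMem ht, zero_mul]
  rw [e2, integral_complex_ofReal]
  congr 1
  have hset : {t : ℝ | ε < |t| ∧ |t| < R} = Ioo ε R ∪ Ioo (-R) (-ε) := by
    ext t
    simp only [mem_ofPred_eq, mem_union, mem_Ioo]
    constructor
    · rintro ⟨h1, h2⟩
      rcases le_total 0 t with h | h
      · rw [abs_of_nonneg h] at h1 h2; left; exact ⟨h1, h2⟩
      · rw [abs_of_nonpos h] at h1 h2; right; constructor <;> linarith
    · rintro (⟨h1, h2⟩ | ⟨h1, h2⟩)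
      · rw [abs_of_pos (hε.trans h1)]; exact ⟨h1, h2⟩
      · rw [abs_of_neg (by linarith)]; constructor <;> linarith
  have hdisj : Disjoint (Ioo ε R) (Ioo (-R) (-ε)) := by
    rw [Set.disjoint_left]
    intro t h1 h2
    linarith [h1.1, h2.2]
  have hci : IntervalIntegrable (fun t => ww f t / t) volume ε R := by
    have := ii_div hwc 1 hε (hε.trans hR)
    simpa using this
  have hci2 : IntervalIntegrable (fun t => ww f t / t) volume (-R) (-ε) := by
    refine ContinuousOn.intervalIntegrable ?_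
    refine hwc.continuousOn.div continuousOn_id fun t ht => ?_
    rw [uIcc_of_le (by linarith)] at ht
    exact (show t < 0 by linarith [ht.2]).ne
  have hio1 : IntegrableOn (fun t => ww f t / t) (Ioo ε R) volume := by
    have := (intervalIntegrable_iff_integrableOn_Ioc_of_le hR.le).1 hci
    exact this.mono_set Ioo_subset_Ioc_self
  have hio2 : IntegrableOn (fun t => ww f t / t) (Ioo (-R) (-ε)) volume := by
    have := (intervalIntegrable_iff_integrableOn_Ioc_of_le (by linarith : -R ≤ -ε)).1 hci2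
    exact this.mono_set Ioo_subset_Ioc_self
  rw [hset, setIntegral_union hdisj measurableSet_Ioo hio1 hio2,
    ← integral_Ioc_eq_integral_Ioo, ← integral_Ioc_eq_integral_Ioo,
    ← intervalIntegral.integral_of_le hR.le, ← intervalIntegral.integral_of_le (by linarith)]
  have e3 : (∫ t in (-R)..(-ε), ww f t / t) = ∫ t in ε..R, -(ww f (-t) / t) := by
    rw [← intervalIntegral.integral_comp_neg (fun t => ww f t / t)]
    refine intervalIntegral.integral_congr fun t _ => ?_
    show ww f (-t) / -t = -(ww f (-t) / t)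
    rw [div_neg]
  have hci3 : IntervalIntegrable (fun t => -(ww f (-t) / t)) volume ε R := by
    have := ii_div (f := fun t => ww f (-t)) (hwc.comp continuous_neg) 1 hε (hε.trans hR)
    simp only [pow_one] at this
    exact this.neg
  rw [e3, ← intervalIntegral.integral_add hci hci3]
  refine intervalIntegral.integral_congr fun t _ => ?_
  show ww f t / t + -(ww f (-t) / t) = (ww f t - ww f (-t)) / t
  ring

/-- linearity in one slot -/
theorem QF_add {ε R : ℝ} (hε : 0 < ε) {b : Fin 4 → ℝ} {f : Fin 4 → ℝ → ℂ} (hf : ∀ i, Nice (f i))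
    (i : Fin 4) {u v : ℝ → ℂ} (hu : Nice u) (hv : Nice v) (c : ℂ)
    (h : ∀ x, f i x = u x + c * v x) :
    QF ε R b f = QF ε R b (Function.update f i u) + c * QF ε R b (Function.update f i v) := by
  have hU : ∀ j, Nice (Function.update f i u j) := by
    intro j
    by_cases hj : j = i
    · subst hj; rw [Function.update_self]; exact hu
    · rw [Function.update_of_ne hj]; exact hf j
  have hV : ∀ j, Nice (Function.update f i v j) := by
    intro j
    by_cases hj : j = i
    · subst hj; rw [Function.update_self]; exact hv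
    · rw [Function.update_of_ne hj]; exact hf j
  unfold QF
  rw [← integral_const_mul, ← integral_add (qf_int hε hU) ((qf_int hε hV).const_mul c)]
  congr 1
  funext p
  unfold qf
  have e : ∀ g : ℝ → ℂ, ∏ j, Function.update f i g j (p.1 - b j * p.2)
      = g (p.1 - b i * p.2) * ∏ j ∈ Finset.univ.erase i, f j (p.1 - b j * p.2) := by
    intro g
    rw [← Finset.mul_prod_erase Finset.univ _ (Finset.mem_univ i), Function.update_self]
    congr 1
    refine Finset.prod_congr rfl fun j hj => ?_
    rw [Function.update_of_ne (Finset.ne_of_mem_erase hj)]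
  rw [e u, e v, ← Finset.mul_prod_erase Finset.univ (fun j => f j (p.1 - b j * p.2))
    (Finset.mem_univ i), h]
  ring

theorem NN_le_of_norm_le {f g : ℝ → ℂ} (hf : CB f) (hg : CB g) (h : ∀ x, ‖g x‖ ≤ ‖f x‖) {s : ℝ}
    (hs : 0 < s) : NN g s ≤ NN f s := by
  unfold NN
  have key : ∀ {k : ℝ → ℂ}, CB k → Integrable (fun x => ‖k x‖ ^ s) volume := by
    intro k hk
    obtain ⟨B, hB⟩ := hk.bdd
    obtain ⟨M, hM⟩ := hk.supp
    have : RB fun x => ‖k x‖ ^ s := by
      refine ⟨hk.meas.norm.pow_const s, ⟨B ^ s, fun x => ?_⟩, M, fun x hx => ?_⟩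
      · rw [abs_of_nonneg (Real.rpow_nonneg (norm_nonneg _) _)]
        exact Real.rpow_le_rpow (norm_nonneg _) (hB x) hs.le
      · rw [hM x hx, norm_zero, Real.zero_rpow hs.ne']
    exact this.int
  exact integral_mono (key hg) (key hf) fun x => Real.rpow_le_rpow (norm_nonneg _) (h x) hs.le

/-- from real to complex functions -/
theorem cplx_aux {ε R : ℝ} (hε : 0 < ε) {b : Fin 4 → ℝ} {A : ℝ} (hA : 0 ≤ A) {d : Fin 4 → ℝ}
    (hd : ∀ i, 0 < d i)
    (H : ∀ f : Fin 4 → ℝ → ℝ, (∀ j, RB (f j)) →
      ‖QF ε R b (fun j x => (f j x : ℂ))‖ ≤ A * ∏ i, (NN (fun x => (f i x : ℂ)) (1 / d i)) ^ (d i))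
    (T : Finset (Fin 4)) : ∀ f : Fin 4 → ℝ → ℂ, (∀ j, CB (f j)) →
      (∀ i ∉ T, ∀ x, f i x = ((f i x).re : ℂ)) →
      ‖QF ε R b f‖ ≤ 2 ^ T.card * A * ∏ i, (NN (f i) (1 / d i)) ^ (d i) := by
  induction T using Finset.induction_on with
  | empty =>
    intro f hf hre
    have e : f = fun j x => (((f j x).re : ℝ) : ℂ) := by
      funext j x
      exact hre j (Finset.notMem_empty j) x
    have h := H (fun j x => (f j x).re) fun j => (hf j).re
    rw [Finset.card_empty, pow_zero, one_mul]
    rw [e]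
    exact h
  | insert i T hi ih =>
    intro f hf hre
    set u : ℝ → ℂ := fun x => ((f i x).re : ℂ) with hu
    set v : ℝ → ℂ := fun x => ((f i x).im : ℂ) with hv
    have hu' : CB u := (hf i).re.cb
    have hv' : CB v := (hf i).im.cb
    have hsplit : ∀ x, f i x = u x + Complex.I * v x := by
      intro x
      rw [hu, hv]
      simp only
      rw [mul_comm]
      exact (Complex.re_add_im (f i x)).symm
    rw [QF_add hε (fun j => (hf j).nice) i hu'.nice hv'.nice Complex.I hsplit]
    have hupd : ∀ g : ℝ → ℂ, CB g → (∀ x, g x = ((g x).re : ℂ)) → (∀ x, ‖g x‖ ≤ ‖f i x‖) →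
        ‖QF ε R b (Function.update f i g)‖
          ≤ 2 ^ T.card * A * ∏ j, (NN (f j) (1 / d j)) ^ (d j) := by
      intro g hg hgre hgle
      have hcb : ∀ j, CB (Function.update f i g j) := by
        intro j
        by_cases hj : j = i
        · subst hj; rw [Function.update_self]; exact hg
        · rw [Function.update_of_ne hj]; exact hf j
      refine (ih _ hcb ?_).trans ?_
      · intro j hj x
        by_cases hji : j = i
        · subst hji; rw [Function.update_self]; exact hgre x
        · rw [Function.update_of_ne hji]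
          exact hre j (by rw [Finset.mem_insert]; push Not; exact ⟨hji, hj⟩) x
      · refine mul_le_mul_of_nonneg_left ?_ (by positivity)
        refine Finset.prod_le_prod (fun j _ => Real.rpow_nonneg (NN_nonneg _ _) _) fun j _ => ?_
        refine Real.rpow_le_rpow (NN_nonneg _ _) ?_ (hd j).le
        by_cases hj : j = i
        · subst hj
          rw [Function.update_self]
          exact NN_le_of_norm_le (hf j) hg hgle (one_div_pos.2 (hd j))
        · rw [Function.update_of_ne hj]
    have h1 := hupd u hu' (fun x => by simp [hu]) fun x => by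
      rw [hu]; simp only [Complex.norm_real]; exact Complex.abs_re_le_norm _
    have h2 := hupd v hv' (fun x => by simp [hv]) fun x => by
      rw [hv]; simp only [Complex.norm_real]; exact Complex.abs_im_le_norm _
    rw [Finset.card_insert_of_notMem hi, pow_succ]
    calc ‖QF ε R b (Function.update f i u) + Complex.I * QF ε R b (Function.update f i v)‖
        ≤ ‖QF ε R b (Function.update f i u)‖ + ‖Complex.I * QF ε R b (Function.update f i v)‖ :=
          norm_add_le _ _
      _ = ‖QF ε R b (Function.update f i u)‖ + ‖QF ε R b (Function.update f i v)‖ := by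
          rw [norm_mul, Complex.norm_I, one_mul]
      _ ≤ 2 ^ T.card * A * ∏ j, (NN (f j) (1 / d j)) ^ (d j)
          + 2 ^ T.card * A * ∏ j, (NN (f j) (1 / d j)) ^ (d j) := add_le_add h1 h2
      _ = _ := by ring

/-- **B10, the form**: complex functions -/
theorem form : ∃ C : ℝ, 0 ≤ C ∧ ∀ (n : ℕ) (B : ℝ) (d : Fin 4 → ℝ), 0 ≤ B →
    (∀ i, 0 < d i) → ∑ i, d i = 1 → Node n B d → ∀ f : Fin 4 → ℝ → ℂ, (∀ j, CB (f j)) →
    ∀ ε R : ℝ, 0 < ε → ε < R → R ≤ 2 ^ n * ε →
      ‖QF ε R sl f‖ ≤ C * (B + 1) * ∏ i, (NN (f i) (1 / d i)) ^ (d i) := by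
  obtain ⟨C, hC0, hC⟩ := real_form
  refine ⟨16 * C, by positivity, fun n B d hB hd hs hT f hf ε R hε hR hn => ?_⟩
  have h := cplx_aux (R := R) (b := sl) hε (A := C * (B + 1)) (by positivity) hd (fun g hg => by
    rw [QF_real hε hR hg, Complex.norm_real, Real.norm_eq_abs]
    refine (hC n B d hB hd hs hT g hg ε R hε hR hn).trans (le_of_eq ?_)
    congr 1
    refine Finset.prod_congr rfl fun i _ => ?_
    unfold NN
    congr 2
    funext x
    rw [Complex.norm_real, Real.norm_eq_abs]) Finset.univ f hf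
    (fun i hi => absurd (Finset.mem_univ i) hi)
  refine h.trans (le_of_eq ?_)
  rw [Finset.card_univ, Fintype.card_fin]
  ring

end Vale.Agent.P141.PL.H620
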