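import Mathlib.Analysis.SpecialFunctions.Pow.Real
import Mathlib.Topology.Algebra.InfiniteSum.Real

/-!
# P141, block B10: the discrete targets
-/

namespace Vale.Agent.P141.PL.H620

open Finset

/-- the Haar sign on `[0, 2^k)` -/
def sg (k : ℕ) (i : ℕ) : ℝ := if 2 * i < 2 ^ k then 1 else -1

/-- the points of the box `[0, 2^k)^4` -/
def pts (k : ℕ) : Finset (Fin 4 → ℕ) := Fintype.piFinset fun _ => range (2 ^ k)

/-- the point `2^k n + x` -/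
def pt (k : ℕ) (n : Fin 4 → ℤ) (x : Fin 4 → ℕ) (i : Fin 4) : ℤ := 2 ^ k * n i + x i

/-- the local form of four functions of three variables: `F j` does not see the variable `j`,
the box is `∏ [2^k n_i, 2^k n_i + 2^k)` -/
noncomputable def loc3 (k : ℕ) (n : Fin 4 → ℤ) (F : Fin 4 → (Fin 3 → ℤ) → ℝ) : ℝ :=
  ((2 : ℝ) ^ k)⁻¹ * ∑ x ∈ pts k, (∏ i, sg k (x i)) * ∏ j, F j fun l => pt k n x (j.succAbove l)

/-- the norm of exponent `1/d` -/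
noncomputable def nm {α : Type*} (d : ℝ) (F : α → ℝ) : ℝ := (∑' x, |F x| ^ (1 / d)) ^ d

/-- the family of boxes is a family of boxes of the planes `∑ n_i = o - 2`, scales `1, ..., n` -/
def Adm (n : ℕ) (o : ℤ) (S : Finset (ℕ × (Fin 4 → ℤ))) : Prop :=
  ∀ s ∈ S, 1 ≤ s.1 ∧ s.1 ≤ n ∧ ∑ i, s.2 i = o - 2

/-- TARGET, functions of three variables -/
def Target3 (n : ℕ) (B : ℝ) (d : Fin 4 → ℝ) : Prop :=
  ∀ F : Fin 4 → (Fin 3 → ℤ) → ℝ, (∀ j, (Function.support (F j)).Finite) → ∀ o : ℤ,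
    (o = 1 ∨ o = -1) → ∀ S, Adm n o S → ∑ s ∈ S, |loc3 s.1 s.2 F| ≤ B * ∏ j, nm (d j) (F j)

/-- the linear forms `∑ (i - j) y_i` -/
def ell (j : Fin 4) (y : Fin 4 → ℤ) : ℤ := ∑ i : Fin 4, ((i : ℕ) - (j : ℕ) : ℤ) * y i

/-- the local form of four functions of one variable -/
noncomputable def loc1 (k : ℕ) (n : Fin 4 → ℤ) (f : Fin 4 → ℤ → ℝ) : ℝ :=
  ((2 : ℝ) ^ k)⁻¹ * ∑ x ∈ pts k, (∏ i, sg k (x i)) * ∏ j, f j (ell j (pt k n x))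

/-- all boxes are inside `[-M, M)^4` -/
def Inside (M : ℕ) (S : Finset (ℕ × (Fin 4 → ℤ))) : Prop :=
  ∀ s ∈ S, ∀ i, -(M : ℤ) ≤ 2 ^ s.1 * s.2 i ∧ 2 ^ s.1 * (s.2 i + 1) ≤ M

/-- TARGET, functions of one variable (implied by `Target3`); arbitrarily large `M` suffice -/
def Target1 (n : ℕ) (B : ℝ) (d : Fin 4 → ℝ) : Prop :=
  ∀ f : Fin 4 → ℤ → ℝ, (∀ j, (Function.support (f j)).Finite) → ∀ o : ℤ, (o = 1 ∨ o = -1) →
    ∀ M₀ : ℕ, ∃ M ≥ M₀, ∀ S, Adm n o S → Inside M S →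
      ∑ s ∈ S, |loc1 s.1 s.2 f| ≤ B * (M : ℝ) ^ 2 * ∏ j, nm (d j) (f j)

end Vale.Agent.P141.PL.H620
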