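import Vale.Agent.P141.PL.H620.Op
import Vale.Agent.P141.H115.Interp2

/-!
# P141: all exponents of the open simplex, by interpolation with the trivial bound
-/

namespace Vale.Agent.P141.PL.H620

open MeasureTheory Set Filter Topology
open scoped ENNReal ComplexConjugate
open Vale.Agent.P141.H97 Vale.Agent.P141.H115

/-- powers of the double logarithm are smaller than powers of the logarithm -/
theorem LL_pow (m : ℕ) {δ : ℝ} (hδ : 0 < δ) : ∃ K : ℝ, 0 < K ∧ ∀ ε R : ℝ, 0 < ε → ε < R →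
    LL ε R ^ m ≤ K * (1 + Real.log (R / ε)) ^ δ := by
  set e : ℝ := δ / (m + 1) with he
  have he0 : 0 < e := by positivity
  set k : ℝ := (1 + 1 / e) * 2 ^ e with hk
  have hk0 : 0 < k := by positivity
  refine ⟨k ^ m, by positivity, fun ε R hε hR => ?_⟩
  have hL : 0 ≤ Real.log (R / ε) := Real.log_nonneg ((one_le_div hε).2 hR.le)
  set L := Real.log (R / ε) with hLd
  have h1 : Real.log (2 + L) ≤ (2 + L) ^ e / e := Real.log_le_rpow_div (by linarith) he0
  have h2 : 1 ≤ (2 + L) ^ e := Real.one_le_rpow (by linarith) he0.le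
  have h3 : (2 + L) ^ e ≤ 2 ^ e * (1 + L) ^ e := by
    rw [← Real.mul_rpow (by norm_num) (by linarith)]
    exact Real.rpow_le_rpow (by linarith) (by linarith) he0.le
  have h4 : LL ε R ≤ k * (1 + L) ^ e := by
    have h5 : LL ε R ≤ (1 + 1 / e) * (2 + L) ^ e := by
      unfold LL
      rw [← hLd]
      have : (1 + 1 / e) * (2 + L) ^ e = (2 + L) ^ e + (2 + L) ^ e / e := by ring
      linarith
    refine h5.trans ?_
    rw [hk, mul_assoc]
    exact mul_le_mul_of_nonneg_left h3 (by positivity)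
  have h6 : 0 ≤ LL ε R := by linarith [LL_ge hε hR]
  refine (pow_le_pow_left₀ h6 h4 m).trans ?_
  rw [mul_pow]
  refine mul_le_mul_of_nonneg_left ?_ (by positivity)
  rw [← Real.rpow_natCast, ← Real.rpow_mul (by linarith)]
  refine Real.rpow_le_rpow_of_exponent_le (by linarith) ?_
  rw [he, div_mul_eq_mul_div, div_le_iff₀ (by positivity)]
  nlinarith

theorem ex_two : ∀ i j : Fin 4, ∃ l : Fin 4, l ≠ i ∧ l ≠ j := by decide

/-- decomposition of an exponent vector on the line through a vertex -/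
theorem exists_line {d : Fin 4 → ℝ} (hd : ∀ i, 0 < d i) (hs : ∑ i, d i = 1) {s : ℝ} (hs0 : 0 < s)
    (hs1 : s < 1) (hsd : ∀ i, 2 * d i - 1 < s) :
    ∃ a c : Fin 4 → ℝ, (∀ i, 0 < a i) ∧ (∀ i, a i < 1 / 2) ∧ ∑ i, a i = 1 ∧ (∀ i, 0 < c i) ∧
      ∑ i, c i = 1 ∧ ∀ i, d i = (1 - s) * a i + s * c i := by
  obtain ⟨j, -, hj⟩ := Finset.exists_max_image Finset.univ d ⟨0, Finset.mem_univ _⟩
  have hjm : ∀ i, d i ≤ d j := fun i => hj i (Finset.mem_univ i)
  have hrest : ∀ i, i ≠ j → d i + d j < 1 := by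
    intro i hi
    obtain ⟨l, hli, hlj⟩ := ex_two i j
    have h1 : d i + d j + d l ≤ ∑ i, d i := by
      have h2 : ∑ x ∈ ({i, j, l} : Finset (Fin 4)), d x ≤ ∑ i, d i :=
        Finset.sum_le_sum_of_subset_of_nonneg (Finset.subset_univ _) fun x _ _ => (hd x).le
      rw [Finset.sum_insert, Finset.sum_insert, Finset.sum_singleton] at h2
      · linarith
      · simp [hlj.symm]
      · simp [hi, hli.symm]
    have := hd l
    linarith
  have hM1 : d j < 1 := by
    obtain ⟨l, hl, -⟩ := ex_two j j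
    have := hrest l hl
    have := hd l
    linarith
  set L0 : ℝ := max 1 (1 / (2 * (1 - d j))) with hL0
  have hpos : 0 < 1 - d j := by linarith
  have hL01 : 1 ≤ L0 := le_max_left _ _
  have k1 : L0 * (1 - d j) < 1 := by
    rcases max_cases (1 : ℝ) (1 / (2 * (1 - d j))) with ⟨h, _⟩ | ⟨h, _⟩
    · rw [hL0, h]; linarith [hd j]
    · rw [hL0, h]
      have : 1 / (2 * (1 - d j)) * (1 - d j) = 1 / 2 := by field_simp
      rw [this]; norm_num
  have k2 : ∀ i, i ≠ j → L0 * d i < 1 / 2 := by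
    intro i hi
    have h1 := hrest i hi
    have h2 := hjm i
    rcases max_cases (1 : ℝ) (1 / (2 * (1 - d j))) with ⟨h, _⟩ | ⟨h, _⟩
    · rw [hL0, h]; linarith
    · rw [hL0, h, div_mul_eq_mul_div, div_lt_div_iff₀ (by positivity) (by norm_num)]
      linarith
  have k3 : L0 * (1 - s) < 1 := by
    have h1 := hsd j
    rcases max_cases (1 : ℝ) (1 / (2 * (1 - d j))) with ⟨h, _⟩ | ⟨h, _⟩
    · rw [hL0, h]; linarith
    · rw [hL0, h, div_mul_eq_mul_div, div_lt_one (by positivity)]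
      linarith
  have ev : ∀ᶠ u in 𝓝[>] L0, u * (1 - d j) < 1 ∧ (∀ i, i ≠ j → u * d i < 1 / 2) ∧
      u * (1 - s) < 1 := by
    have c : ∀ x : ℝ, Tendsto (fun u : ℝ => u * x) (𝓝[>] L0) (𝓝 (L0 * x)) := fun x =>
      ((continuous_id.mul continuous_const).tendsto L0).mono_left nhdsWithin_le_nhds
    refine ((c _).eventually (gt_mem_nhds k1)).and (Filter.Eventually.and ?_
      ((c _).eventually (gt_mem_nhds k3)))
    rw [eventually_all]
    intro i
    by_cases hi : i = j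
    · exact Eventually.of_forall fun _ h => absurd hi h
    · exact ((c _).eventually (gt_mem_nhds (k2 i hi))).mono fun _ h _ => h
  obtain ⟨u, ⟨u1, u2, u3⟩, hu⟩ := (ev.and self_mem_nhdsWithin).exists
  have hu' : L0 < u := hu
  have hu1 : 1 < u := lt_of_le_of_lt hL01 hu'
  have hu4 : 1 / 2 < u * (1 - d j) := by
    have h1 : 1 / (2 * (1 - d j)) < u := lt_of_le_of_lt (le_max_right _ _) hu'
    rw [div_lt_iff₀ (by positivity)] at h1
    linarith
  set v : ℝ := (1 - (1 - s) * u) / s with hv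
  have hv0 : 0 < v := div_pos (by linarith) hs0
  have hv1 : v < 1 := by
    rw [hv, div_lt_one hs0]
    nlinarith
  have hsv : s * v = 1 - (1 - s) * u := by rw [hv]; field_simp
  clear_value v
  have hsumj : ∑ i ∈ Finset.univ.erase j, d i = 1 - d j := by
    have := Finset.add_sum_erase Finset.univ d (Finset.mem_univ j)
    linarith
  have hsum : ∀ x : ℝ, ∑ i, (if i = j then 1 - x * (1 - d j) else x * d i) = 1 := by
    intro x
    rw [← Finset.add_sum_erase Finset.univ _ (Finset.mem_univ j), if_pos rfl]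
    have : ∑ i ∈ Finset.univ.erase j, (if i = j then 1 - x * (1 - d j) else x * d i)
        = ∑ i ∈ Finset.univ.erase j, x * d i :=
      Finset.sum_congr rfl fun i hi => if_neg (Finset.ne_of_mem_erase hi)
    rw [this, ← Finset.mul_sum, hsumj]
    ring
  refine ⟨fun i => if i = j then 1 - u * (1 - d j) else u * d i,
    fun i => if i = j then 1 - v * (1 - d j) else v * d i, ?_, ?_, hsum u, ?_, hsum v, ?_⟩
  · intro i
    by_cases hi : i = j
    · simp only [if_pos hi]; linarith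
    · simp only [if_neg hi]
      have := hd i
      positivity
  · intro i
    by_cases hi : i = j
    · simp only [if_pos hi]; linarith
    · simp only [if_neg hi]; exact u2 i hi
  · intro i
    by_cases hi : i = j
    · simp only [if_pos hi]
      nlinarith [hd j]
    · simp only [if_neg hi]
      have := hd i
      positivity
  · intro i
    by_cases hi : i = j
    · simp only [if_pos hi]
      subst hi
      linear_combination (1 - d i) * hsv
    · simp only [if_neg hi]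
      linear_combination (-(d i)) * hsv

/-- the exponents covered by the other blocks -/
def HypAll (m : ℕ) : Prop := ∀ d : Fin 4 → ℝ, (∀ i, 0 < d i) → (∀ i, d i < 1 / 2) → ∑ i, d i = 1 →
  ∃ C : ℝ, 0 ≤ C ∧ Hyp m d C

/-- all exponents of the open simplex -/
theorem form_all {m : ℕ} (H : HypAll m) {d : Fin 4 → ℝ} (hd : ∀ i, 0 < d i) (hs : ∑ i, d i = 1)
    {s : ℝ} (hs0 : 0 < s) (hsd : ∀ i, 2 * d i - 1 < s) :
    ∃ C : ℝ, 0 ≤ C ∧ ∀ ε R : ℝ, 0 < ε → ε < R → ∀ f : Fin 4 → ℝ → ℂ, (∀ i, Simp (f i)) →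
      ‖QF ε R sl f‖ ≤ C * (1 + Real.log (R / ε)) ^ s * ∏ i, (NN (f i) (1 / d i)) ^ (d i) := by
  have hd1 : ∀ i, d i < 1 := by
    intro i
    obtain ⟨l, hl, -⟩ := ex_two i i
    have h2 : ∑ x ∈ ({i, l} : Finset (Fin 4)), d x ≤ ∑ i, d i :=
      Finset.sum_le_sum_of_subset_of_nonneg (Finset.subset_univ _) fun x _ _ => (hd x).le
    rw [Finset.sum_pair hl.symm] at h2
    have := hd l
    linarith
  -- an intermediate exponent
  obtain ⟨t, ht0, hts, ht1, htd⟩ : ∃ t : ℝ, 0 < t ∧ t < s ∧ t < 1 ∧ ∀ i, 2 * d i - 1 < t := by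
    obtain ⟨j, -, hj⟩ := Finset.exists_max_image Finset.univ d ⟨0, Finset.mem_univ _⟩
    have hlt : max 0 (2 * d j - 1) < min s 1 := by
      rw [max_lt_iff, lt_min_iff, lt_min_iff]
      exact ⟨⟨hs0, one_pos⟩, hsd j, by linarith [hd1 j]⟩
    obtain ⟨t, h1, h2⟩ := exists_between hlt
    rw [max_lt_iff] at h1
    rw [lt_min_iff] at h2
    exact ⟨t, h1.1, h2.1, h2.2, fun i => by linarith [hj i (Finset.mem_univ i), h1.2]⟩
  obtain ⟨a, c, ha0, ha1, has, hc0, hcs, hdac⟩ := exists_line hd hs ht0 ht1 htd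
  obtain ⟨C, hC0, hC⟩ := H a ha0 ha1 has
  obtain ⟨C', hC'0, hC'⟩ := form_LL ha0 has hC0 hC
  obtain ⟨K, hK0, hK⟩ := LL_pow m (show 0 < s - t by linarith)
  refine ⟨(C' * K) ^ (1 - t) * 2 ^ t, by positivity, fun ε R hε hR f hf => ?_⟩
  have hL : 0 ≤ Real.log (R / ε) := Real.log_nonneg ((one_le_div hε).2 hR.le)
  set L := Real.log (R / ε) with hLd
  have hLL := LL_ge hε hR
  have h := interp2 (b := sl) (A := C' * LL ε R ^ m) (B := 2 * L) (θ := t) hε (by positivity)
    (by positivity) ha0 hc0 ht0.le ht1.le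
    (fun g hg => hC' ε R hε hR g fun i => CB.of_simp (hg i))
    (fun g hg => trivial_bound hε hR sl hc0 hcs g hg) hdac f hf
  refine h.trans ?_
  have hP : 0 ≤ ∏ i, (NN (f i) (1 / d i)) ^ (d i) :=
    Finset.prod_nonneg fun i _ => Real.rpow_nonneg (NN_nonneg _ _) _
  refine mul_le_mul_of_nonneg_right ?_ hP
  have h1 : (C' * LL ε R ^ m) ^ (1 - t) ≤ (C' * K) ^ (1 - t) * (1 + L) ^ (s - t) := by
    have h2 : C' * LL ε R ^ m ≤ C' * K * (1 + L) ^ (s - t) := by
      rw [mul_assoc]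
      exact mul_le_mul_of_nonneg_left (hK ε R hε hR) hC'0
    refine (Real.rpow_le_rpow (by positivity) h2 (by linarith)).trans ?_
    rw [Real.mul_rpow (by positivity) (by positivity)]
    refine mul_le_mul_of_nonneg_left ?_ (by positivity)
    rw [← Real.rpow_mul (by linarith)]
    refine Real.rpow_le_rpow_of_exponent_le (by linarith) ?_
    nlinarith
  have h2 : (2 * L) ^ t ≤ 2 ^ t * (1 + L) ^ t := by
    rw [← Real.mul_rpow (by norm_num) (by linarith)]
    exact Real.rpow_le_rpow (by positivity) (by linarith) ht0.le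
  calc (C' * LL ε R ^ m) ^ (1 - t) * (2 * L) ^ t
      ≤ ((C' * K) ^ (1 - t) * (1 + L) ^ (s - t)) * (2 ^ t * (1 + L) ^ t) := by gcongr
    _ = (C' * K) ^ (1 - t) * 2 ^ t * ((1 + L) ^ (s - t) * (1 + L) ^ t) := by ring
    _ = (C' * K) ^ (1 - t) * 2 ^ t * (1 + L) ^ s := by
        rw [← Real.rpow_add (by linarith)]
        congr 2
        ring

/-- all Hoelder tuples with `1 < r`, `p_i < ∞` -/
theorem op_tuples {m : ℕ} (H : HypAll m) {p₁ p₂ p₃ r : ℝ≥0∞} (hd : ∀ i, 0 < dd p₁ p₂ p₃ r i)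
    (hsum : r⁻¹ = p₁⁻¹ + p₂⁻¹ + p₃⁻¹) {s : ℝ} (hs0 : 0 < s)
    (hsd : ∀ i, 2 * dd p₁ p₂ p₃ r i - 1 < s) :
    ∃ C : ℝ, 0 ≤ C ∧ ∀ f₁ f₂ f₃ : ℝ → ℂ, Nice f₁ → Nice f₂ → Nice f₃ →
      ∀ ε R : ℝ, 0 < ε → ε < R → eLpNorm (TT ε R 1 2 3 f₁ f₂ f₃) r volume ≤
        ENNReal.ofReal (C * (1 + Real.log (R / ε)) ^ s) * eLpNorm f₁ p₁ volume *
          eLpNorm f₂ p₂ volume * eLpNorm f₃ p₃ volume := by
  obtain ⟨C, hC0, hC⟩ := form_all H hd (dd_sum hd hsum) hs0 hsd
  refine ⟨C, hC0, fun f₁ f₂ f₃ k₁ k₂ k₃ ε R hε hR => ?_⟩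
  have hL : 0 ≤ Real.log (R / ε) := Real.log_nonneg ((one_le_div hε).2 hR.le)
  exact op_of_form hε (by positivity) hd hsum (fun f hf => hC ε R hε hR f hf) k₁ k₂ k₃

end Vale.Agent.P141.PL.H620
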