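import Vale.Agent.P141.PL.H95.All
import Vale.Agent.P141.PL.H990.Fin
import Vale.Agent.P141.PL.H620.Tup

/-!
# P141: `HypAll` with one exponent
-/

namespace Vale.Agent.P141.PL.H620

/-- the bounds on the nodes, all exponents below `1/2`, one power of the logarithm of the number of
scales -/
theorem hypAll : ∃ m : ℕ, HypAll m := H95.hyp_of_stCost H990.stCost

end Vale.Agent.P141.PL.H620
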