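import Vale.Agent.P141.PL.H620.Full
import Vale.Agent.P141.PL.H620.Unif

/-!
# P141: the final theorem from the three inputs `StProc`, `StZero`, `StNode` of the discrete side
-/

namespace Vale.Agent.P141.PL.H620

open MeasureTheory Set Filter Topology
open scoped ENNReal SchwartzMap
open Vale.Agent.P141

/-- the three parts of the final theorem, one power `m` -/
theorem final (H : ∃ m : ℕ, HypAll m) : ∃ m : ℕ,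
    (∀ p₁ p₂ p₃ r : ℝ≥0∞, IsHolderTuple p₁ p₂ p₃ r → 2 < p₁ → 2 < p₂ → 2 < p₃ →
      p₁ ≠ ∞ → p₂ ≠ ∞ → p₃ ≠ ∞ → 1 < r → r < 2 →
      ∃ C : ℝ, ∀ f₁ f₂ f₃ : 𝓢(ℝ, ℂ), ∀ ε R : ℝ, 0 < ε → ε < R →
        eLpNorm (truncTHT f₁ f₂ f₃ ε R) r volume ≤
          ENNReal.ofReal (C * (1 + Real.log (2 + Real.log (R / ε))) ^ m) *
            eLpNorm f₁ p₁ volume * eLpNorm f₂ p₂ volume * eLpNorm f₃ p₃ volume) ∧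
    (∀ p₁ p₂ p₃ r : ℝ≥0∞, IsHolderTuple p₁ p₂ p₃ r → p₁ ≠ ∞ → p₂ ≠ ∞ → p₃ ≠ ∞ → 1 < r →
      ∀ s : ℝ, 0 < s → 2 * (p₁⁻¹).toReal - 1 < s → 2 * (p₂⁻¹).toReal - 1 < s →
      2 * (p₃⁻¹).toReal - 1 < s → 1 - 2 * (r⁻¹).toReal < s →
      ∃ C : ℝ, ∀ f₁ f₂ f₃ : 𝓢(ℝ, ℂ), ∀ ε R : ℝ, 0 < ε → ε < R →
        eLpNorm (truncTHT f₁ f₂ f₃ ε R) r volume ≤
          ENNReal.ofReal (C * (1 + Real.log (R / ε)) ^ s) *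
            eLpNorm f₁ p₁ volume * eLpNorm f₂ p₂ volume * eLpNorm f₃ p₃ volume) ∧
    (∃ C : ℝ, ∀ f : Fin 3 → 𝓢(ℝ, ℂ), ∀ j : Fin 3, ∀ a l N : ℝ, 0 < l → 2 ≤ N →
      (∀ x, x ∉ Icc a (a + l) → f j x = 0) →
      (∀ s, eLpNorm (fun x => f j (x - s) - f j x) 6 volume ≤
          ENNReal.ofReal (N / l * |s|) * eLpNorm (f j) 6 volume) →
      eLpNorm (THT (f 0) (f 1) (f 2)) (6 / 5) volume ≤
        ENNReal.ofReal (C * (1 + Real.log (2 + Real.log N)) ^ m) *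
          ∏ i, eLpNorm (f i) (if i = j then 6 else 3) volume) := by
  obtain ⟨m, H⟩ := H
  refine ⟨m, fun p₁ p₂ p₃ r h h₁ h₂ h₃ t₁ t₂ t₃ hr hr2 =>
    trunc_loglog H h h₁ h₂ h₃ t₁ t₂ t₃ hr hr2, fun p₁ p₂ p₃ r h t₁ t₂ t₃ hr s hs0 s₁ s₂ s₃ s₀ =>
    trunc_pow H h t₁ t₂ t₃ hr hs0 s₁ s₂ s₃ s₀, tht_loglog H⟩

end Vale.Agent.P141.PL.H620
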