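import Vale.Agent.P141.PL.H620.Main

/-!
# P141: uniform bounds on the nodes imply that `T` is bounded
-/

namespace Vale.Agent.P141.PL.H620

open MeasureTheory Set Filter Topology
open scoped ENNReal ComplexConjugate SchwartzMap
open Vale.Agent.P141 Vale.Agent.P141.H97 Vale.Agent.P141.H115

/-- bounds for the truncations pass to `T` -/
theorem tht_le' (f₁ f₂ f₃ : 𝓢(ℝ, ℂ)) {r X : ℝ≥0∞}
    (H : ∀ ε R : ℝ, 0 < ε → ε < R → eLpNorm (truncTHT f₁ f₂ f₃ ε R) r volume ≤ X) :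
    eLpNorm (THT f₁ f₂ f₃) r volume ≤ X := by
  set e : ℕ → ℝ := fun n => 1 / ((n : ℝ) + 1) with he
  set s : ℕ → ℝ := fun n => 2 + n with hs
  have he0 : ∀ n, 0 < e n := fun n => by rw [he]; positivity
  have hes : ∀ n, e n < s n := fun n => by
    have h1 : (1 : ℝ) / ((n : ℝ) + 1) ≤ 1 := by
      rw [div_le_one (by positivity)]; linarith [(Nat.cast_nonneg n : (0 : ℝ) ≤ n)]
    simp only [he, hs]
    linarith [(Nat.cast_nonneg n : (0 : ℝ) ≤ n)]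
  have t1 : Tendsto e atTop (𝓝[>] 0) := by
    rw [tendsto_nhdsWithin_iff]
    exact ⟨tendsto_one_div_add_atTop_nhds_zero_nat (𝕜 := ℝ), Eventually.of_forall he0⟩
  have t2 : Tendsto s atTop atTop :=
    tendsto_atTop_add_const_left _ _ tendsto_natCast_atTop_atTop
  have hlim : ∀ᵐ x : ℝ, Tendsto (fun n => truncTHT f₁ f₂ f₃ (e n) (s n) x) atTop
      (𝓝 (THT f₁ f₂ f₃ x)) := by
    refine ae_of_all _ fun x => ?_
    exact (exists_tendsto_truncTHT f₁ f₂ f₃ x).comp (t1.prodMk t2)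
  have hm : ∀ n, AEStronglyMeasurable (truncTHT f₁ f₂ f₃ (e n) (s n)) volume := by
    intro n
    have e1 : truncTHT f₁ f₂ f₃ (e n) (s n) = TT (e n) (s n) 1 2 3 f₁ f₂ f₃ := by
      funext x
      exact (TT_eq (e n) (s n) f₁ f₂ f₃ x).symm
    rw [e1]
    exact (TT_meas (nice_schwartz f₁) (nice_schwartz f₂) (nice_schwartz f₃)).aestronglyMeasurable
  refine (Lp.eLpNorm_lim_le_liminf_eLpNorm hm _ hlim).trans ?_
  refine liminf_le_of_le (by isBoundedDefault) fun b hb => ?_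
  obtain ⟨n, hn⟩ := hb.exists
  exact hn.trans (H (e n) (s n) (he0 n) (hes n))

/-- bounds for the nodes without logarithms: `T` is bounded at every Hölder tuple with
`2 < p_i < ∞`, `1 < r < 2` -/
theorem bounded_of_hyp0 (H : HypAll 0) {p₁ p₂ p₃ r : ℝ≥0∞} (h : IsHolderTuple p₁ p₂ p₃ r)
    (h₁ : 2 < p₁) (h₂ : 2 < p₂) (h₃ : 2 < p₃) (t₁ : p₁ ≠ ∞) (t₂ : p₂ ≠ ∞) (t₃ : p₃ ≠ ∞)
    (hr : 1 < r) (hr2 : r < 2) : BoundedAt p₁ p₂ p₃ r := by
  obtain ⟨C, hC⟩ := trunc_loglog H h h₁ h₂ h₃ t₁ t₂ t₃ hr hr2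
  refine ⟨ENNReal.ofReal C, ENNReal.ofReal_lt_top, fun f₁ f₂ f₃ => ?_⟩
  refine tht_le' f₁ f₂ f₃ fun ε R hε hR => ?_
  have := hC f₁ f₂ f₃ ε R hε hR
  simpa using this

end Vale.Agent.P141.PL.H620
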