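import Vale.Agent.P141.PL.H571.Node
import Vale.Agent.P141.PL.H620.Tup

/-!
# P141: from the root estimates to `HypAll`
-/

namespace Vale.Agent.P141.PL.H620

open Finset Vale.Agent.P141.PL.H571

theorem Node.mono {n : ℕ} {B B' : ℝ} {d : Fin 4 → ℝ} (h : Node n B d) (hB : B ≤ B') :
    Node n B' d := by
  intro f hf o ho V
  refine (h f hf o ho V).trans ?_
  refine mul_le_mul_of_nonneg_right hB (Finset.prod_nonneg fun j _ => ?_)
  exact Real.rpow_nonneg (tsum_nonneg fun x => Real.rpow_nonneg (abs_nonneg _) _) _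

theorem node_zero {B : ℝ} (hB : 0 ≤ B) (d : Fin 4 → ℝ) : Node 0 B d := by
  intro f hf o ho V
  rw [show Icc 1 0 = (∅ : Finset ℕ) from rfl, Finset.sum_empty]
  refine mul_nonneg hB (Finset.prod_nonneg fun j _ => ?_)
  exact Real.rpow_nonneg (tsum_nonneg fun x => Real.rpow_nonneg (abs_nonneg _) _) _

/-- the exponent `q` and the power `h` of the height -/
theorem exists_q {d : Fin 4 → ℝ} (hd : ∀ i, 0 < d i) (hlt : ∀ i, d i < 1 / 2) :
    ∃ q : ℝ, 2 < q ∧ ∀ i, d i * q < 1 := by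
  obtain ⟨i₀, -, hi₀⟩ := Finset.exists_max_image (Finset.univ : Finset (Fin 4)) d
    Finset.univ_nonempty
  have hD0 := hd i₀
  have hD1 := hlt i₀
  have h1 : 2 < 1 / d i₀ := by rw [lt_div_iff₀ hD0]; linarith
  refine ⟨(2 + 1 / d i₀) / 2, by linarith, fun i => ?_⟩
  have h2 : d i * ((2 + 1 / d i₀) / 2) ≤ d i₀ * ((2 + 1 / d i₀) / 2) :=
    mul_le_mul_of_nonneg_right (hi₀ i (mem_univ i)) (by linarith)
  have h3 : d i₀ * ((2 + 1 / d i₀) / 2) = d i₀ + 1 / 2 := by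
    field_simp
  linarith

/-- the root estimates for all powers of `n` as heights imply `HypAll` -/
theorem hypAll_of_root {m : ℕ} (hR : ∀ h : ℕ, ∃ C : ℝ, 0 ≤ C ∧ ∀ n : ℕ, 1 ≤ n →
    RootTh n ((n : ℝ) ^ h) (C * (1 + Real.log (1 + n)) ^ m)) : HypAll m := by
  intro d hd hlt hs
  obtain ⟨q, hq, hdq⟩ := exists_q hd hlt
  obtain ⟨C₁, hC₁, H₁⟩ := node_of_root hq d hd hs hdq
  obtain ⟨h, hh⟩ := exists_nat_ge (2 / (q - 2))
  obtain ⟨C₂, hC₂, H₂⟩ := hR h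
  refine ⟨C₁ * (C₂ + 1), by positivity, fun n => ?_⟩
  rcases Nat.eq_zero_or_pos n with hn | hn
  · subst hn
    refine node_zero ?_ d
    have : 0 ≤ Real.log (1 + ((0 : ℕ) : ℝ)) := by simp
    positivity
  have hn1 : (1 : ℝ) ≤ n := by exact_mod_cast hn
  have hn0 : (0 : ℝ) < n := by linarith
  have hL : 0 ≤ Real.log (1 + (n : ℝ)) := Real.log_nonneg (by linarith)
  have hL1 : (1 : ℝ) ≤ (1 + Real.log (1 + (n : ℝ))) ^ m := one_le_pow₀ (by linarith)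
  refine (H₁ n ((n : ℝ) ^ h) _ (by positivity) (by positivity) (H₂ n hn)).mono ?_
  have h1 : (n : ℝ) * ((n : ℝ) ^ h) ^ (-(q - 2) / 2) ≤ 1 := by
    rw [← Real.rpow_natCast, ← Real.rpow_mul hn0.le]
    have h2 : (n : ℝ) * (n : ℝ) ^ ((h : ℝ) * (-(q - 2) / 2)) =
        (n : ℝ) ^ (1 + (h : ℝ) * (-(q - 2) / 2)) := by
      rw [Real.rpow_add hn0, Real.rpow_one]
    rw [h2]
    refine Real.rpow_le_one_of_one_le_of_nonpos hn1 ?_
    have h3 : 2 ≤ (h : ℝ) * (q - 2) := by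
      rw [div_le_iff₀ (by linarith)] at hh
      exact hh
    nlinarith
  calc C₁ * (C₂ * (1 + Real.log (1 + (n : ℝ))) ^ m + (n : ℝ) * ((n : ℝ) ^ h) ^ (-(q - 2) / 2))
      ≤ C₁ * (C₂ * (1 + Real.log (1 + (n : ℝ))) ^ m + 1 * (1 + Real.log (1 + (n : ℝ))) ^ m) := by
        refine mul_le_mul_of_nonneg_left ?_ hC₁.le
        linarith
    _ = C₁ * (C₂ + 1) * (1 + Real.log (1 + (n : ℝ))) ^ m := by ring

end Vale.Agent.P141.PL.H620
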