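import Vale.Agent.P141.PL.H620.UnifOp

/-!
# P141: the closed faces `p_i = ∞`, `r = 1`
-/

namespace Vale.Agent.P141.PL.H620

open MeasureTheory Set Filter Topology
open scoped ENNReal ComplexConjugate SchwartzMap
open Vale.Agent.P141 Vale.Agent.P141.H97 Vale.Agent.P141.H115

/-- lower semicontinuity of the norm in the exponent -/
theorem eLpNorm_le_of_tendsto {g : ℝ → ℂ} (hg : AEStronglyMeasurable g volume) {ρ : ℝ}
    (hρ : 0 < ρ) {ρn : ℕ → ℝ} (hn : ∀ n, 0 < ρn n) (ht : Tendsto ρn atTop (𝓝 ρ)) {Y : ℝ}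
    {Yn : ℕ → ℝ} (hY : ∀ n, 0 ≤ Yn n) (hYt : Tendsto Yn atTop (𝓝 Y))
    (h : ∀ n, eLpNorm g (ENNReal.ofReal (ρn n)) volume ≤ ENNReal.ofReal (Yn n)) :
    eLpNorm g (ENNReal.ofReal ρ) volume ≤ ENNReal.ofReal Y := by
  have hY0 : 0 ≤ Y := ge_of_tendsto' hYt hY
  have key : ∀ s : ℝ, 0 < s → ∀ Z : ℝ, 0 ≤ Z → (eLpNorm g (ENNReal.ofReal s) volume ≤
      ENNReal.ofReal Z ↔ ∫⁻ x, ENNReal.ofReal (‖g x‖ ^ s) ≤ ENNReal.ofReal (Z ^ s)) := by
    intro s hs Z hZ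
    have e : ∀ x, ENNReal.ofReal (‖g x‖ ^ s) = ‖g x‖ₑ ^ s := fun x => by
      rw [← ofReal_norm_eq_enorm, ENNReal.ofReal_rpow_of_nonneg (norm_nonneg _) hs.le]
    rw [eLpNorm_eq_lintegral_rpow_enorm (by simpa using hs) ENNReal.ofReal_ne_top,
      ENNReal.toReal_ofReal hs.le, lintegral_congr e, one_div,
      ← ENNReal.ofReal_rpow_of_nonneg hZ hs.le, ENNReal.rpow_inv_le_iff hs]
  rw [key ρ hρ Y hY0]
  have h1 : ∀ x, Tendsto (fun n => ENNReal.ofReal (‖g x‖ ^ ρn n)) atTop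
      (𝓝 (ENNReal.ofReal (‖g x‖ ^ ρ))) := fun x =>
    (ENNReal.continuous_ofReal.tendsto _).comp
      ((Real.continuousAt_const_rpow' hρ.ne').tendsto.comp ht)
  have h2 : Tendsto (fun n => ENNReal.ofReal (Yn n ^ ρn n)) atTop
      (𝓝 (ENNReal.ofReal (Y ^ ρ))) := by
    refine (ENNReal.continuous_ofReal.tendsto _).comp ?_
    exact (Real.continuousAt_rpow (Y, ρ) (Or.inr hρ)).tendsto.comp (hYt.prodMk_nhds ht)
  have hm : ∀ n, AEMeasurable (fun x => ENNReal.ofReal (‖g x‖ ^ ρn n)) volume := fun n =>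
    (hg.norm.aemeasurable.pow_const _).ennreal_ofReal
  calc ∫⁻ x, ENNReal.ofReal (‖g x‖ ^ ρ)
      = ∫⁻ x, liminf (fun n => ENNReal.ofReal (‖g x‖ ^ ρn n)) atTop :=
        lintegral_congr fun x => ((h1 x).liminf_eq).symm
    _ ≤ liminf (fun n => ∫⁻ x, ENNReal.ofReal (‖g x‖ ^ ρn n)) atTop := lintegral_liminf_le' hm
    _ ≤ liminf (fun n => ENNReal.ofReal (Yn n ^ ρn n)) atTop := by
        refine liminf_le_liminf (Eventually.of_forall fun n => ?_)
        exact (key _ (hn n) _ (hY n)).1 (h n)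
    _ = ENNReal.ofReal (Y ^ ρ) := h2.liminf_eq

/-- convexity of the norm in the exponent, with the exponent `4` -/
theorem eLpNorm_mix {f : ℝ → ℂ} (hf : AEStronglyMeasurable f volume) {p q : ℝ≥0∞} {η : ℝ}
    (h0 : 0 < η) (h1 : η < 1)
    (hq : q⁻¹ = ENNReal.ofReal (1 - η) * p⁻¹ + ENNReal.ofReal η * 4⁻¹) :
    eLpNorm f q volume ≤ eLpNorm f p volume ^ (1 - η) * eLpNorm f 4 volume ^ η := by
  have a0 : 0 < 1 - η := by linarith
  have z1 : ENNReal.ofReal (1 - η) ≠ 0 := by simpa using a0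
  have z2 : ENNReal.ofReal η ≠ 0 := by simpa using h0
  have e : eLpNorm f q volume = eLpNorm (fun x => ‖f x‖ ^ (1 - η) * ‖f x‖ ^ η) q volume := by
    rw [← eLpNorm_norm]
    congr 1
    funext x
    rw [← Real.rpow_add_of_nonneg (norm_nonneg _) a0.le h0.le, sub_add_cancel, Real.rpow_one]
  have hH : ENNReal.HolderTriple (p / ENNReal.ofReal (1 - η)) (4 / ENNReal.ofReal η) q := by
    refine ⟨?_⟩
    rw [hq, ENNReal.inv_div (Or.inl ENNReal.ofReal_ne_top) (Or.inl z1),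
      ENNReal.inv_div (Or.inl ENNReal.ofReal_ne_top) (Or.inl z2), div_eq_mul_inv, div_eq_mul_inv]
  have m1 : AEStronglyMeasurable (fun x => ‖f x‖ ^ (1 - η)) volume :=
    (hf.norm.aemeasurable.pow_const _).aestronglyMeasurable
  have m2 : AEStronglyMeasurable (fun x => ‖f x‖ ^ η) volume :=
    (hf.norm.aemeasurable.pow_const _).aestronglyMeasurable
  have h := eLpNorm_smul_le_mul_eLpNorm (p := p / ENNReal.ofReal (1 - η))
    (q := 4 / ENNReal.ofReal η) (r := q) m2 m1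
  rw [e]
  refine (le_of_eq ?_).trans (h.trans (le_of_eq ?_))
  · rfl
  · rw [eLpNorm_norm_rpow f a0, eLpNorm_norm_rpow f h0,
      ENNReal.div_mul_cancel z1 ENNReal.ofReal_ne_top,
      ENNReal.div_mul_cancel z2 ENNReal.ofReal_ne_top]

end Vale.Agent.P141.PL.H620
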