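import Vale.Agent.P141.PL.H620.Avg

/-!
# P141, B10 (b2): from the integers to the line
-/

namespace Vale.Agent.P141.PL.H620

open Finset MeasureTheory

/-- real function: measurable, bounded, of bounded support -/
structure RB (f : ℝ → ℝ) : Prop where
  meas : Measurable f
  bdd : ∃ B : ℝ, ∀ x, |f x| ≤ B
  supp : ∃ M : ℝ, ∀ x, M < |x| → f x = 0

theorem RB.int {f : ℝ → ℝ} (h : RB f) : Integrable f := by
  obtain ⟨B, hB⟩ := h.bdd
  obtain ⟨M, hM⟩ := h.supp
  have h1 : Integrable ((Set.Icc (-M) M).indicator fun _ : ℝ => B) volume :=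
    (integrable_indicator_iff measurableSet_Icc).2
      (integrableOn_const (by rw [Real.volume_Icc]; exact ENNReal.ofReal_ne_top))
  refine h1.mono' h.meas.aestronglyMeasurable (ae_of_all _ fun x => ?_)
  by_cases hx : |x| ≤ M
  · rw [Set.indicator_of_mem (show x ∈ Set.Icc (-M) M from abs_le.1 hx)]
    exact hB x
  · rw [hM x (not_le.1 hx), norm_zero]
    exact Set.indicator_nonneg (fun _ _ => (abs_nonneg _).trans (hB 0)) _

theorem RB.shift {f : ℝ → ℝ} (h : RB f) (c : ℝ) : RB fun x => f (x + c) := by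
  obtain ⟨B, hB⟩ := h.bdd
  obtain ⟨M, hM⟩ := h.supp
  refine ⟨h.meas.comp (measurable_id.add_const c), ⟨B, fun x => hB _⟩, M + |c|, fun x hx => ?_⟩
  refine hM _ ?_
  have := abs_sub_abs_le_abs_sub x (-c)
  rw [sub_neg_eq_add, abs_neg] at this
  linarith

theorem RB.mul {f g : ℝ → ℝ} (hf : RB f) (hg : RB g) : RB fun x => f x * g x := by
  obtain ⟨B, hB⟩ := hf.bdd
  obtain ⟨B', hB'⟩ := hg.bdd
  obtain ⟨M, hM⟩ := hf.supp
  refine ⟨hf.meas.mul hg.meas, ⟨B * B', fun x => ?_⟩, M, fun x hx => by rw [hM x hx, zero_mul]⟩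
  rw [abs_mul]
  exact mul_le_mul (hB x) (hB' x) (abs_nonneg _) ((abs_nonneg _).trans (hB x))

theorem RB.prod {f : Fin 4 → ℝ → ℝ} (h : ∀ j, RB (f j)) : RB fun x => ∏ j, f j x := by
  simp only [Fin.prod_univ_four]
  exact (((h 0).mul (h 1)).mul (h 2)).mul (h 3)

/-- the correlation of four functions on the line -/
noncomputable def ww (f : Fin 4 → ℝ → ℝ) (u : ℝ) : ℝ := ∫ x, ∏ j : Fin 4, f j (x - (j : ℕ) * u)

/-- unfolding of the integral over the line -/
theorem unfold1 {h : ℝ → ℝ} (hi : Integrable h) {L : ℕ} (hL : ∀ x, (L : ℝ) < |x| → h x = 0) :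
    ∫ s in (0 : ℝ)..1, ∑ X ∈ Icc (-(L + 1 : ℤ)) (L + 1), h (s + X) = ∫ x, h x := by
  have hX : ∀ X : ℤ, IntervalIntegrable (fun s => h (s + X)) volume 0 1 := fun X =>
    (hi.comp_add_right (X : ℝ)).intervalIntegrable
  rw [intervalIntegral.integral_finsetSum fun X _ => hX X]
  rw [← hi.hasSum_intervalIntegral_comp_add_int.tsum_eq]
  symm
  refine tsum_eq_sum fun X hXn => ?_
  rw [Finset.mem_Icc, not_and_or, not_le, not_le] at hXn
  have : ∀ s ∈ Set.uIcc (0 : ℝ) 1, h (s + X) = (fun _ => (0 : ℝ)) s := by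
    intro s hs
    rw [Set.uIcc_of_le zero_le_one] at hs
    refine hL _ ?_
    rw [lt_abs]
    rcases hXn with h1 | h1
    · right
      have : (X : ℝ) < -(L + 1) := by exact_mod_cast h1
      linarith [hs.2]
    · left
      have : (L : ℝ) + 1 < X := by exact_mod_cast h1
      linarith [hs.1]
  rw [intervalIntegral.integral_congr this]
  simp

/-- Hoelder with four exponents -/
theorem hold4 {α : Type*} [MeasurableSpace α] {μ : Measure α} {G : Fin 4 → α → ℝ}
    (hm : ∀ j, Integrable (G j) μ) (h0 : ∀ j x, 0 ≤ G j x) {d : Fin 4 → ℝ} (hd : ∀ i, 0 < d i)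
    (hs : ∑ i, d i = 1) : Integrable (fun x => ∏ j, G j x ^ d j) μ ∧
      ∫ x, ∏ j, G j x ^ d j ∂μ ≤ ∏ j, (∫ x, G j x ∂μ) ^ d j := by
  have hmeas : AEStronglyMeasurable (fun x => ∏ j, G j x ^ d j) μ := by
    have : AEMeasurable (fun x => ∏ j, G j x ^ d j) μ :=
      Finset.aemeasurable_fun_prod _ fun j _ => (hm j).aemeasurable.pow_const _
    exact this.aestronglyMeasurable
  have hnn : ∀ x, 0 ≤ ∏ j, G j x ^ d j := fun x =>
    Finset.prod_nonneg fun j _ => Real.rpow_nonneg (h0 j x) _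
  have h1 : ∫⁻ x, ENNReal.ofReal (∏ j, G j x ^ d j) ∂μ
      ≤ ENNReal.ofReal (∏ j, (∫ x, G j x ∂μ) ^ d j) := by
    have e1 : ∀ x, ENNReal.ofReal (∏ j, G j x ^ d j) = ∏ j, (ENNReal.ofReal (G j x)) ^ d j := by
      intro x
      rw [ENNReal.ofReal_prod_of_nonneg fun j _ => Real.rpow_nonneg (h0 j x) _]
      exact Finset.prod_congr rfl fun j _ => (ENNReal.ofReal_rpow_of_nonneg (h0 j x) (hd j).le).symm
    simp only [e1]
    refine (ENNReal.lintegral_prod_norm_pow_le Finset.univ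
      (fun j _ => (hm j).aemeasurable.ennreal_ofReal) hs fun j _ => (hd j).le).trans (le_of_eq ?_)
    rw [ENNReal.ofReal_prod_of_nonneg fun j _ =>
      Real.rpow_nonneg (integral_nonneg fun x => h0 j x) _]
    refine Finset.prod_congr rfl fun j _ => ?_
    rw [← ofReal_integral_eq_lintegral_ofReal (hm j) (ae_of_all _ fun x => h0 j x),
      ENNReal.ofReal_rpow_of_nonneg (integral_nonneg fun x => h0 j x) (hd j).le]
  have h2 : Integrable (fun x => ∏ j, G j x ^ d j) μ := by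
    refine ⟨hmeas, ?_⟩
    rw [hasFiniteIntegral_iff_ofReal (ae_of_all _ hnn)]
    exact h1.trans_lt ENNReal.ofReal_lt_top
  refine ⟨h2, ?_⟩
  rw [integral_eq_lintegral_of_nonneg_ae (ae_of_all _ hnn) hmeas]
  refine ENNReal.toReal_le_of_le_ofReal ?_ h1
  exact Finset.prod_nonneg fun j _ => Real.rpow_nonneg (integral_nonneg fun x => h0 j x) _

theorem RB.rpow {f : ℝ → ℝ} (h : RB f) {p : ℝ} (hp : 0 < p) : RB fun x => |f x| ^ p := by
  obtain ⟨B, hB⟩ := h.bdd
  obtain ⟨M, hM⟩ := h.supp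
  refine ⟨(h.meas.abs).pow_const p, ⟨B ^ p, fun x => ?_⟩, M, fun x hx => ?_⟩
  · rw [abs_of_nonneg (Real.rpow_nonneg (abs_nonneg _) _)]
    exact Real.rpow_le_rpow (abs_nonneg _) (hB x) hp.le
  · rw [hM x hx, abs_zero, Real.zero_rpow hp.ne']

/-- sup bound of the correlation -/
theorem ww_le {f : Fin 4 → ℝ → ℝ} (hf : ∀ j, RB (f j)) {d : Fin 4 → ℝ} (hd : ∀ i, 0 < d i)
    (hs : ∑ i, d i = 1) (u : ℝ) : |ww f u| ≤ ∏ j, (∫ x, |f j x| ^ (1 / d j)) ^ d j := by
  have hg : ∀ j, RB fun x => |f j (x + -((j : ℕ) * u))| ^ (1 / d j) := fun j =>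
    ((hf j).shift _).rpow (one_div_pos.2 (hd j))
  have h := hold4 (μ := (volume : Measure ℝ)) (G := fun j x => |f j (x + -((j : ℕ) * u))| ^ (1 / d j))
    (fun j => (hg j).int) (fun j x => Real.rpow_nonneg (abs_nonneg _) _) hd hs
  have e1 : ∀ j, (∫ x, |f j (x + -((j : ℕ) * u))| ^ (1 / d j)) = ∫ x, |f j x| ^ (1 / d j) := fun j =>
    integral_add_right_eq_self (fun x => |f j x| ^ (1 / d j)) _
  simp only [e1] at h
  refine le_trans ?_ h.2
  unfold ww
  refine (abs_integral_le_integral_abs).trans (le_of_eq ?_)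
  congr 1
  funext x
  rw [Finset.abs_prod]
  refine Finset.prod_congr rfl fun j _ => ?_
  rw [← Real.rpow_mul (abs_nonneg _), one_div, inv_mul_cancel₀ (hd j).ne', Real.rpow_one,
    sub_eq_add_neg]

/-- **(b2)** sampling -/
theorem samp {n : ℕ} {B : ℝ} {d : Fin 4 → ℝ} (hT : Node n B d) (hB : 0 ≤ B)
    (hd : ∀ i, 0 < d i) (hs : ∑ i, d i = 1) {f : Fin 4 → ℝ → ℝ} (hf : ∀ j, RB (f j)) {o : ℤ}
    (ho : o = 1 ∨ o = -1) (c : ℝ) :
    ∑ k ∈ Icc 1 n, |∑ x ∈ pts k, (((16 : ℝ) ^ k)⁻¹ * ∏ i, sg k (x i)) * ww f (c + uu k o x)|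
      ≤ B * ∏ j, (∫ x, |f j x| ^ (1 / d j)) ^ d j := by
  choose M hM using fun j => (hf j).supp
  obtain ⟨L, hL⟩ : ∃ L : ℕ, ∀ j, M j + 3 * |c| ≤ L := by
    obtain ⟨L, hL⟩ := exists_nat_ge (∑ j, |M j| + 3 * |c|)
    refine ⟨L, fun j => le_trans ?_ hL⟩
    have : |M j| ≤ ∑ j, |M j| := Finset.single_le_sum (f := fun j => |M j|)
      (fun j _ => abs_nonneg _) (Finset.mem_univ j)
    linarith [le_abs_self (M j)]
  -- shifted functions
  set F : Fin 4 → ℝ → ℝ := fun j x => f j (x + -((j : ℕ) * c)) with hF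
  have hFRB : ∀ j, RB (F j) := fun j => (hf j).shift _
  have hFL : ∀ j x, (L : ℝ) < |x| → F j x = 0 := by
    intro j x hx
    refine hM j _ ?_
    have h1 := abs_sub_abs_le_abs_sub x ((j : ℕ) * c)
    rw [abs_mul, Nat.abs_cast, sub_eq_add_neg x] at h1
    have h2 : ((j : ℕ) : ℝ) ≤ 3 := by
      have : (j : ℕ) ≤ 3 := by omega
      exact_mod_cast this
    have h3 : ((j : ℕ) : ℝ) * |c| ≤ 3 * |c| := mul_le_mul_of_nonneg_right h2 (abs_nonneg _)
    linarith [hL j]
  set I : Finset ℤ := Icc (-(L + 1 : ℤ)) (L + 1) with hI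
  have hout : ∀ s ∈ Set.Icc (0 : ℝ) 1, ∀ X ∉ I, (L : ℝ) < |s + X| := by
    intro s hs X hX
    rw [hI, Finset.mem_Icc, not_and_or, not_le, not_le] at hX
    rw [lt_abs]
    rcases hX with h1 | h1
    · right
      have : (X : ℝ) < -(L + 1) := by exact_mod_cast h1
      linarith [hs.2]
    · left
      have : (L : ℝ) + 1 < X := by exact_mod_cast h1
      linarith [hs.1]
  -- sampled functions
  set g : ℝ → Fin 4 → ℤ → ℝ := fun s j m => F j (s + m) with hg
  have hgs : ∀ s ∈ Set.Icc (0 : ℝ) 1, ∀ j, Function.support (g s j) ⊆ I := by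
    intro s hs j m hm
    by_contra hc
    exact hm (hFL j _ (hout s hs m hc))
  have hnm : ∀ s ∈ Set.Icc (0 : ℝ) 1, ∀ j, nm (d j) (g s j)
      = (∑ m ∈ I, |F j (s + m)| ^ (1 / d j)) ^ d j := by
    intro s hs j
    unfold nm
    congr 1
    refine tsum_eq_sum fun m hm => ?_
    have : g s j m = 0 := by
      by_contra hc
      exact hm (hgs s hs j hc)
    rw [this, abs_zero, Real.zero_rpow (one_div_pos.2 (hd j)).ne']
  -- the correlation of the samples
  set hh : ℤ → ℝ → ℝ := fun U x => ∏ j : Fin 4, f j (x - (j : ℕ) * (c + U)) with hhh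
  have hhRB : ∀ U, RB (hh U) := by
    intro U
    have : hh U = fun x => ∏ j : Fin 4, (fun x => f j (x + -((j : ℕ) * (c + U)))) x := by
      funext x
      simp only [hhh, sub_eq_add_neg]
    rw [this]
    exact RB.prod fun j => (hf j).shift _
  have hhL : ∀ U x, (L : ℝ) < |x| → hh U x = 0 := by
    intro U x hx
    refine Finset.prod_eq_zero (Finset.mem_univ (0 : Fin 4)) ?_
    refine hM 0 _ ?_
    simp only [Fin.val_zero, Nat.cast_zero, zero_mul, sub_zero]
    linarith [hL 0, abs_nonneg c]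
  have hDD : ∀ s ∈ Set.Icc (0 : ℝ) 1, ∀ U : ℤ, DD (g s) U = ∑ X ∈ I, hh U (s + X) := by
    intro s hs U
    unfold DD
    have e1 : ∀ X : ℤ, ∏ j : Fin 4, g s j (X - ((j : ℕ) : ℤ) * U) = hh U (s + X) := by
      intro X
      refine Finset.prod_congr rfl fun j _ => ?_
      show f j (s + ((X - ((j : ℕ) : ℤ) * U : ℤ) : ℝ) + -((j : ℕ) * c)) = _
      congr 1
      push_cast
      ring
    simp only [e1]
    exact tsum_eq_sum fun X hX => hhL U _ (hout s hs X hX)
  have hww : ∀ U : ℤ, ww f (c + U) = ∫ s in (0 : ℝ)..1, ∑ X ∈ I, hh U (s + X) := by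
    intro U
    rw [hI, unfold1 (hhRB U).int (hhL U)]
    rfl
  have hhi : ∀ U X : ℤ, IntervalIntegrable (fun s => hh U (s + X)) volume 0 1 := fun U X =>
    ((hhRB U).int.comp_add_right (X : ℝ)).intervalIntegrable
  have hhis : ∀ U : ℤ, IntervalIntegrable (fun s => ∑ X ∈ I, hh U (s + X)) volume 0 1 := by
    intro U
    have := IntervalIntegrable.sum I (fun X _ => hhi U X)
    refine this.congr_ae (ae_of_all _ fun t => ?_)
    simp only [Finset.sum_apply]
  set Q : ℕ → ℝ → ℝ := fun k s => ∑ x ∈ pts k, (((16 : ℝ) ^ k)⁻¹ * ∏ i, sg k (x i)) *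
    ∑ X ∈ I, hh (uu k o x) (s + X) with hQ
  have hQi : ∀ k, IntervalIntegrable (Q k) volume 0 1 := by
    intro k
    have := IntervalIntegrable.sum (pts k) (fun x _ => (hhis (uu k o x)).const_mul
      (((16 : ℝ) ^ k)⁻¹ * ∏ i, sg k (x i)))
    refine this.congr_ae (ae_of_all _ fun t => ?_)
    simp only [Finset.sum_apply, hQ]
  have e2 : ∀ k, ∑ x ∈ pts k, (((16 : ℝ) ^ k)⁻¹ * ∏ i, sg k (x i)) * ww f (c + uu k o x)
      = ∫ s in (0 : ℝ)..1, Q k s := by
    intro k
    simp only [hQ]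
    rw [intervalIntegral.integral_finsetSum fun x _ => (hhis (uu k o x)).const_mul _]
    refine Finset.sum_congr rfl fun x _ => ?_
    rw [intervalIntegral.integral_const_mul, hww]
  have e3 : ∀ s ∈ Set.Icc (0 : ℝ) 1, ∀ k, Q k s = SS k o (g s) := by
    intro s hs k
    simp only [hQ, SS]
    rw [Finset.mul_sum]
    refine Finset.sum_congr rfl fun x _ => ?_
    rw [hDD s hs]
    ring
  -- the pointwise bound
  set P : ℝ → ℝ := fun s => ∏ j, (∑ m ∈ I, |F j (s + m)| ^ (1 / d j)) ^ d j with hP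
  have hpt : ∀ s ∈ Set.Icc (0 : ℝ) 1, ∑ k ∈ Icc 1 n, |Q k s| ≤ B * P s := by
    intro s hs
    have h1 := disc hT (f := g s) (fun j => (Finset.finite_toSet I).subset (hgs s hs j)) ho
    have h2 : ∏ j, nm (d j) (g s j) = P s := Finset.prod_congr rfl fun j _ => hnm s hs j
    rw [h2] at h1
    refine le_trans (le_of_eq ?_) h1
    exact Finset.sum_congr rfl fun k _ => by rw [e3 s hs]
  -- Hoelder in `s`
  have hRBp : ∀ j, RB fun x => |F j x| ^ (1 / d j) := fun j =>
    (hFRB j).rpow (one_div_pos.2 (hd j))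
  have hGi : ∀ j, IntegrableOn (fun s : ℝ => ∑ m ∈ I, |F j (s + m)| ^ (1 / d j))
      (Set.Ioc 0 1) volume := fun j =>
    integrable_finsetSum _ fun m _ => ((hRBp j).int.comp_add_right (m : ℝ)).integrableOn
  have hH := hold4 (μ := volume.restrict (Set.Ioc (0 : ℝ) 1))
    (G := fun j s => ∑ m ∈ I, |F j (s + m)| ^ (1 / d j)) hGi
    (fun j s => Finset.sum_nonneg fun m _ => Real.rpow_nonneg (abs_nonneg _) _) hd hs
  have hGe : ∀ j, (∫ s in Set.Ioc (0 : ℝ) 1, ∑ m ∈ I, |F j (s + m)| ^ (1 / d j))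
      = ∫ x, |f j x| ^ (1 / d j) := by
    intro j
    have h1 := unfold1 (h := fun x => |F j x| ^ (1 / d j)) (hRBp j).int (L := L) (fun x hx => by
      rw [hFL j x hx, abs_zero, Real.zero_rpow (one_div_pos.2 (hd j)).ne'])
    rw [intervalIntegral.integral_of_le zero_le_one] at h1
    rw [hI, h1]
    exact integral_add_right_eq_self (fun x => |f j x| ^ (1 / d j)) _
  simp only [hGe] at hH
  have hPi : IntervalIntegrable P volume 0 1 := by
    rw [intervalIntegrable_iff_integrableOn_Ioc_of_le zero_le_one]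
    exact hH.1
  calc ∑ k ∈ Icc 1 n, |∑ x ∈ pts k, (((16 : ℝ) ^ k)⁻¹ * ∏ i, sg k (x i)) * ww f (c + uu k o x)|
      ≤ ∑ k ∈ Icc 1 n, ∫ s in (0 : ℝ)..1, |Q k s| := by
        refine Finset.sum_le_sum fun k _ => ?_
        rw [e2]
        exact intervalIntegral.abs_integral_le_integral_abs zero_le_one
    _ = ∫ s in (0 : ℝ)..1, ∑ k ∈ Icc 1 n, |Q k s| := by
        rw [intervalIntegral.integral_finsetSum fun k _ => (hQi k).abs]
    _ ≤ ∫ s in (0 : ℝ)..1, B * P s := by
        have hsum : IntervalIntegrable (fun s => ∑ k ∈ Icc 1 n, |Q k s|) volume 0 1 := by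
          have := IntervalIntegrable.sum (Icc 1 n) (fun k _ => (hQi k).abs)
          refine this.congr_ae (ae_of_all _ fun t => ?_)
          simp only [Finset.sum_apply]
        exact intervalIntegral.integral_mono_on zero_le_one hsum (hPi.const_mul _)
          fun s hs => hpt s hs
    _ = B * ∫ s in (0 : ℝ)..1, P s := intervalIntegral.integral_const_mul _ _
    _ ≤ B * ∏ j, (∫ x, |f j x| ^ (1 / d j)) ^ d j := by
        refine mul_le_mul_of_nonneg_left ?_ (by positivity)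
        rw [intervalIntegral.integral_of_le zero_le_one]
        exact hH.2

end Vale.Agent.P141.PL.H620
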