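import Vale.Agent.P141.PL.H620.Op
import Vale.Agent.P141.H115.Final

/-!
# P141: the trilinear Hilbert transform itself when one of the three functions is regular,
double logarithm of the number of oscillations
-/

namespace Vale.Agent.P141.PL.H620

open MeasureTheory Set Filter Topology
open scoped ENNReal ComplexConjugate SchwartzMap
open Vale.Agent.P141.H97 Vale.Agent.P141.H115

/-- the operator bound at `(3,3,6;6/5)` with slopes `α`, in the form used below -/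
def Opb (α₁ α₂ α₃ : ℝ) (C : ℝ) (m : ℕ) : Prop :=
  ∀ f₁ f₂ f₃ : ℝ → ℂ, Nice f₁ → Nice f₂ → Nice f₃ → ∀ ε R : ℝ, 0 < ε → ε < R →
    eLpNorm (TT ε R α₁ α₂ α₃ f₁ f₂ f₃) (6 / 5) volume ≤
      ENNReal.ofReal (C * LL ε R ^ m) * (eLpNorm f₁ 3 volume * eLpNorm f₂ 3 volume *
        eLpNorm f₃ 6 volume)

/-- all scales together -/
theorem whole' {α₁ α₂ α₃ : ℝ} (h30 : α₃ ≠ 0) (h31 : α₃ - α₁ ≠ 0) (h32 : α₃ - α₂ ≠ 0)
    {C₂ : ℝ} {m : ℕ} (hC₂ : 0 ≤ C₂) (H₂ : Opb α₁ α₂ α₃ C₂ m) :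
    ∃ C : ℝ, 0 ≤ C ∧ ∀ f₁ f₂ f₃ : ℝ → ℂ, Nice f₁ → Nice f₂ → Nice f₃ →
      ∀ a l N : ℝ, 0 < l → 2 ≤ N → (∀ x, x ∉ Icc a (a + l) → f₃ x = 0) →
      (∀ s, eLpNorm (fun x => f₃ (x - s) - f₃ x) 6 volume ≤
        ENNReal.ofReal (N / l * |s|) * eLpNorm f₃ 6 volume) →
      ∀ ε R : ℝ, 0 < ε → ε < l / N → l < R →
      eLpNorm (TT ε R α₁ α₂ α₃ f₁ f₂ f₃) (6 / 5) volume ≤
        ENNReal.ofReal (C * (1 + Real.log (2 + Real.log N)) ^ m) * (eLpNorm f₁ 3 volume *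
          eLpNorm f₂ 3 volume * eLpNorm f₃ 6 volume) := by
  obtain ⟨C₁, hC₁, H₁⟩ := small
  obtain ⟨C₃, hC₃, H₃⟩ := large h30 h31 h32
  refine ⟨(C₁ + 2 * |α₃| + C₃) + C₂, by positivity, ?_⟩
  intro f₁ f₂ f₃ h₁ h₂ h₃ a l N hl hN hs hreg ε R hε hεδ hR
  have hN0 : 0 < N := by linarith
  set δ : ℝ := l / N with hδ
  have hδ0 : 0 < δ := by positivity
  have hδl : δ < l := by
    rw [hδ, div_lt_iff₀ hN0]; nlinarith
  have e2 : LL δ l = 1 + Real.log (2 + Real.log N) := by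
    unfold LL
    congr 3
    rw [hδ]; field_simp
  have hcN : 1 ≤ (1 + Real.log (2 + Real.log N)) ^ m := by
    rw [← e2]
    exact one_le_pow₀ (LL_ge hδ0 hδl)
  have b1 := H₁ α₁ α₂ α₃ f₁ f₂ f₃ h₁ h₂ h₃ (N / l) (by positivity) hreg ε δ hε hεδ
  have b2 := H₂ f₁ f₂ f₃ h₁ h₂ h₃ δ l hδ0 hδl
  have b3 := H₃ f₁ f₂ f₃ h₁ h₂ h₃ a l R hl hs
  have hsplit : TT ε R α₁ α₂ α₃ f₁ f₂ f₃ = fun x => TT ε δ α₁ α₂ α₃ f₁ f₂ f₃ x +
      (TT δ l α₁ α₂ α₃ f₁ f₂ f₃ x + TT l R α₁ α₂ α₃ f₁ f₂ f₃ x) := by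
    funext x
    rw [TT_split hε hεδ (hδl.trans hR) h₁ h₂ h₃ x, TT_split hδ0 hδl hR h₁ h₂ h₃ x]
  have m1 := (TT_meas (ε := ε) (R := δ) (α₁ := α₁) (α₂ := α₂) (α₃ := α₃) h₁ h₂
    h₃).aestronglyMeasurable (μ := (volume : Measure ℝ))
  have m2 := (TT_meas (ε := δ) (R := l) (α₁ := α₁) (α₂ := α₂) (α₃ := α₃) h₁ h₂
    h₃).aestronglyMeasurable (μ := (volume : Measure ℝ))
  have m3 := (TT_meas (ε := l) (R := R) (α₁ := α₁) (α₂ := α₂) (α₃ := α₃) h₁ h₂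
    h₃).aestronglyMeasurable (μ := (volume : Measure ℝ))
  have h1r : (1 : ℝ≥0∞) ≤ 6 / 5 := by
    rw [ENNReal.le_div_iff_mul_le (by norm_num) (by norm_num)]; norm_num
  set P := eLpNorm f₁ 3 volume * eLpNorm f₂ 3 volume * eLpNorm f₃ 6 volume with hP
  have e1 : C₁ + 2 * δ * (N / l * |α₃|) = C₁ + 2 * |α₃| := by
    rw [hδ]; field_simp
  rw [e1] at b1
  rw [e2] at b2
  rw [hsplit]
  have t1 : eLpNorm (fun x => TT ε δ α₁ α₂ α₃ f₁ f₂ f₃ x +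
      (TT δ l α₁ α₂ α₃ f₁ f₂ f₃ x + TT l R α₁ α₂ α₃ f₁ f₂ f₃ x)) (6 / 5) volume ≤
      ENNReal.ofReal (C₁ + 2 * |α₃|) * P + (ENNReal.ofReal
        (C₂ * (1 + Real.log (2 + Real.log N)) ^ m) * P + ENNReal.ofReal C₃ * P) := by
    refine (eLpNorm_add_le m1 (m2.add m3) h1r).trans (add_le_add b1 ?_)
    exact (eLpNorm_add_le m2 m3 h1r).trans (add_le_add b2 b3)
  refine t1.trans ?_
  rw [← add_mul, ← add_mul, ← ENNReal.ofReal_add (by positivity) (by positivity),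
    ← ENNReal.ofReal_add (by positivity) (by positivity)]
  apply mul_le_mul_left
  apply ENNReal.ofReal_le_ofReal
  have hS : 0 ≤ C₁ + 2 * |α₃| + C₃ := by positivity
  nlinarith [mul_le_mul_of_nonneg_left hcN hS]

/-- **`T` itself at `(3,3,6;6/5)` and permutations** -/
theorem tht_regular' {m : ℕ} {C₀ C₁ C₂ : ℝ} (hC₀ : 0 ≤ C₀) (hC₁ : 0 ≤ C₁) (hC₂ : 0 ≤ C₂)
    (H₀ : Opb 2 3 1 C₀ m) (H₁ : Opb 1 3 2 C₁ m) (H₂ : Opb 1 2 3 C₂ m) :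
    ∃ C : ℝ, ∀ f : Fin 3 → 𝓢(ℝ, ℂ), ∀ j : Fin 3, ∀ a l N : ℝ, 0 < l → 2 ≤ N →
    (∀ x, x ∉ Icc a (a + l) → f j x = 0) →
    (∀ s, eLpNorm (fun x => f j (x - s) - f j x) 6 volume ≤
        ENNReal.ofReal (N / l * |s|) * eLpNorm (f j) 6 volume) →
    eLpNorm (THT (f 0) (f 1) (f 2)) (6 / 5) volume ≤
      ENNReal.ofReal (C * (1 + Real.log (2 + Real.log N)) ^ m) *
        ∏ i, eLpNorm (f i) (if i = j then 6 else 3) volume := by
  obtain ⟨C₀, h₀, H₀⟩ := whole' (α₁ := 2) (α₂ := 3) (α₃ := 1) (by norm_num) (by norm_num)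
    (by norm_num) hC₀ H₀
  obtain ⟨C₁, h₁, H₁⟩ := whole' (α₁ := 1) (α₂ := 3) (α₃ := 2) (by norm_num) (by norm_num)
    (by norm_num) hC₁ H₁
  obtain ⟨C₂, h₂, H₂⟩ := whole' (α₁ := 1) (α₂ := 2) (α₃ := 3) (by norm_num) (by norm_num)
    (by norm_num) hC₂ H₂
  refine ⟨C₀ + C₁ + C₂, fun f j a l N hl hN hs hreg => ?_⟩
  have hδ : 0 < l / N := div_pos hl (by linarith)
  have n := fun i => nice_schwartz (f i)
  have hL : 0 ≤ (1 + Real.log (2 + Real.log N)) ^ m := by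
    have h1 : 0 ≤ Real.log N := Real.log_nonneg (by linarith)
    have h2 : 0 ≤ Real.log (2 + Real.log N) := Real.log_nonneg (by linarith)
    positivity
  refine tht_le (f 0) (f 1) (f 2) hδ (l := l) fun ε R hε hεδ hR => ?_
  obtain rfl | rfl | rfl : j = 0 ∨ j = 1 ∨ j = 2 := by fin_cases j <;> simp
  · rw [TT_rot]
    refine (H₀ _ _ _ (n 1) (n 2) (n 0) a l N hl hN hs hreg ε R hε hεδ hR).trans ?_
    refine mul_le_mul' (ENNReal.ofReal_le_ofReal (mul_le_mul_of_nonneg_right (by linarith) hL))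
      (le_of_eq ?_)
    rw [Fin.prod_univ_three, if_pos rfl, if_neg (by decide), if_neg (by decide)]
    ring
  · rw [TT_23]
    refine (H₁ _ _ _ (n 0) (n 2) (n 1) a l N hl hN hs hreg ε R hε hεδ hR).trans ?_
    refine mul_le_mul' (ENNReal.ofReal_le_ofReal (mul_le_mul_of_nonneg_right (by linarith) hL))
      (le_of_eq ?_)
    rw [Fin.prod_univ_three, if_pos rfl, if_neg (by decide), if_neg (by decide)]
    ring
  · refine (H₂ _ _ _ (n 0) (n 1) (n 2) a l N hl hN hs hreg ε R hε hεδ hR).trans ?_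
    refine mul_le_mul' (ENNReal.ofReal_le_ofReal (mul_le_mul_of_nonneg_right (by linarith) hL))
      (le_of_eq ?_)
    rw [Fin.prod_univ_three, if_pos rfl, if_neg (by decide), if_neg (by decide)]

end Vale.Agent.P141.PL.H620
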