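import Vale.Agent.P141.PL.H620.Tup
import Vale.Agent.P141.PL.H620.Whole
import Vale.Agent.P141.Defs

/-!
# P141: the final theorem from `HypAll`
-/

namespace Vale.Agent.P141.PL.H620

open MeasureTheory Set Filter Topology
open scoped ENNReal ComplexConjugate SchwartzMap
open Vale.Agent.P141 Vale.Agent.P141.H97 Vale.Agent.P141.H115

theorem inv_pos' {p : ℝ≥0∞} (h0 : p ≠ 0) (ht : p ≠ ∞) : 0 < (p⁻¹).toReal :=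
  ENNReal.toReal_pos (ENNReal.inv_ne_zero.2 ht) (ENNReal.inv_ne_top.2 h0)

theorem inv_lt_half {p : ℝ≥0∞} (h : 2 < p) : (p⁻¹).toReal < 1 / 2 := by
  have h1 : p⁻¹ < (2 : ℝ≥0∞)⁻¹ := ENNReal.inv_lt_inv.2 h
  have h2 := (ENNReal.toReal_lt_toReal (ne_top_of_lt h1) (by simp)).2 h1
  simpa using h2

theorem inv_lt_one' {p : ℝ≥0∞} (h : 1 < p) : (p⁻¹).toReal < 1 := by
  have h1 : p⁻¹ < (1 : ℝ≥0∞)⁻¹ := ENNReal.inv_lt_inv.2 h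
  have h2 := (ENNReal.toReal_lt_toReal (ne_top_of_lt h1) (by simp)).2 h1
  simpa using h2

theorem half_lt_inv {p : ℝ≥0∞} (h0 : p ≠ 0) (h : p < 2) : 1 / 2 < (p⁻¹).toReal := by
  have h1 : (2 : ℝ≥0∞)⁻¹ < p⁻¹ := ENNReal.inv_lt_inv.2 h
  have h2 := (ENNReal.toReal_lt_toReal (by simp) (ENNReal.inv_ne_top.2 h0)).2 h1
  simpa using h2

theorem dd_pos {p₁ p₂ p₃ r : ℝ≥0∞} (h : IsHolderTuple p₁ p₂ p₃ r) (t₁ : p₁ ≠ ∞) (t₂ : p₂ ≠ ∞)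
    (t₃ : p₃ ≠ ∞) (hr : 1 < r) : ∀ i, 0 < dd p₁ p₂ p₃ r i := by
  intro i
  have z : ∀ {p : ℝ≥0∞}, 1 < p → p ≠ 0 := fun hp => (zero_lt_one.trans hp).ne'
  fin_cases i
  · show 0 < 1 - (r⁻¹).toReal
    linarith [inv_lt_one' hr]
  · exact inv_pos' (z h.one_lt_p₁) t₁
  · exact inv_pos' (z h.one_lt_p₂) t₂
  · exact inv_pos' (z h.one_lt_p₃) t₃

/-- part 1: double logarithm -/
theorem trunc_loglog {m : ℕ} (H : HypAll m) {p₁ p₂ p₃ r : ℝ≥0∞} (h : IsHolderTuple p₁ p₂ p₃ r)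
    (h₁ : 2 < p₁) (h₂ : 2 < p₂) (h₃ : 2 < p₃) (t₁ : p₁ ≠ ∞) (t₂ : p₂ ≠ ∞) (t₃ : p₃ ≠ ∞)
    (hr : 1 < r) (hr2 : r < 2) :
    ∃ C : ℝ, ∀ f₁ f₂ f₃ : 𝓢(ℝ, ℂ), ∀ ε R : ℝ, 0 < ε → ε < R →
      eLpNorm (truncTHT f₁ f₂ f₃ ε R) r volume ≤
        ENNReal.ofReal (C * (1 + Real.log (2 + Real.log (R / ε))) ^ m) *
          eLpNorm f₁ p₁ volume * eLpNorm f₂ p₂ volume * eLpNorm f₃ p₃ volume := by
  have hd := dd_pos h t₁ t₂ t₃ hr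
  have hs := dd_sum hd h.holder
  have hlt : ∀ i, dd p₁ p₂ p₃ r i < 1 / 2 := by
    intro i
    fin_cases i
    · show 1 - (r⁻¹).toReal < 1 / 2
      linarith [half_lt_inv h.r_pos.ne' hr2]
    · exact inv_lt_half h₁
    · exact inv_lt_half h₂
    · exact inv_lt_half h₃
  obtain ⟨C, hC0, hC⟩ := H _ hd hlt hs
  obtain ⟨C', -, hC'⟩ := op_LL hd h.holder hC0 hC
  refine ⟨C', fun f₁ f₂ f₃ ε R hε hR => ?_⟩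
  have h1 := hC' f₁ f₂ f₃ (nice_schwartz f₁) (nice_schwartz f₂) (nice_schwartz f₃) ε R hε hR
  have e : TT ε R 1 2 3 f₁ f₂ f₃ = truncTHT f₁ f₂ f₃ ε R := by
    funext x
    exact TT_eq ε R f₁ f₂ f₃ x
  rw [e] at h1
  exact h1

/-- part 2: all tuples with `1 < r`, `p_i < ∞` -/
theorem trunc_pow {m : ℕ} (H : HypAll m) {p₁ p₂ p₃ r : ℝ≥0∞} (h : IsHolderTuple p₁ p₂ p₃ r)
    (t₁ : p₁ ≠ ∞) (t₂ : p₂ ≠ ∞) (t₃ : p₃ ≠ ∞) (hr : 1 < r) {s : ℝ} (hs0 : 0 < s)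
    (s₁ : 2 * (p₁⁻¹).toReal - 1 < s) (s₂ : 2 * (p₂⁻¹).toReal - 1 < s)
    (s₃ : 2 * (p₃⁻¹).toReal - 1 < s) (s₀ : 1 - 2 * (r⁻¹).toReal < s) :
    ∃ C : ℝ, ∀ f₁ f₂ f₃ : 𝓢(ℝ, ℂ), ∀ ε R : ℝ, 0 < ε → ε < R →
      eLpNorm (truncTHT f₁ f₂ f₃ ε R) r volume ≤
        ENNReal.ofReal (C * (1 + Real.log (R / ε)) ^ s) *
          eLpNorm f₁ p₁ volume * eLpNorm f₂ p₂ volume * eLpNorm f₃ p₃ volume := by
  have hd := dd_pos h t₁ t₂ t₃ hr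
  have hlt : ∀ i, 2 * dd p₁ p₂ p₃ r i - 1 < s := by
    intro i
    fin_cases i
    · show 2 * (1 - (r⁻¹).toReal) - 1 < s
      linarith
    · exact s₁
    · exact s₂
    · exact s₃
  obtain ⟨C', -, hC'⟩ := op_tuples H hd h.holder hs0 hlt
  refine ⟨C', fun f₁ f₂ f₃ ε R hε hR => ?_⟩
  have h1 := hC' f₁ f₂ f₃ (nice_schwartz f₁) (nice_schwartz f₂) (nice_schwartz f₃) ε R hε hR
  have e : TT ε R 1 2 3 f₁ f₂ f₃ = truncTHT f₁ f₂ f₃ ε R := by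
    funext x
    exact TT_eq ε R f₁ f₂ f₃ x
  rw [e] at h1
  exact h1

theorem inv36 : (((3 : ℝ≥0∞)⁻¹).toReal = 1 / 3 ∧ ((6 : ℝ≥0∞)⁻¹).toReal = 1 / 6) ∧
    (((6 / 5 : ℝ≥0∞))⁻¹).toReal = 5 / 6 := by
  refine ⟨⟨?_, ?_⟩, ?_⟩
  · simp
  · simp
  · rw [ENNReal.toReal_inv, ENNReal.toReal_div]
    norm_num

/-- part 3: `T` itself -/
theorem tht_loglog {m : ℕ} (H : HypAll m) :
    ∃ C : ℝ, ∀ f : Fin 3 → 𝓢(ℝ, ℂ), ∀ j : Fin 3, ∀ a l N : ℝ, 0 < l → 2 ≤ N →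
    (∀ x, x ∉ Icc a (a + l) → f j x = 0) →
    (∀ s, eLpNorm (fun x => f j (x - s) - f j x) 6 volume ≤
        ENNReal.ofReal (N / l * |s|) * eLpNorm (f j) 6 volume) →
    eLpNorm (THT (f 0) (f 1) (f 2)) (6 / 5) volume ≤
      ENNReal.ofReal (C * (1 + Real.log (2 + Real.log N)) ^ m) *
        ∏ i, eLpNorm (f i) (if i = j then 6 else 3) volume := by
  obtain ⟨⟨i3, i6⟩, i65⟩ := inv36
  have key : ∀ p₁ p₂ p₃ : ℝ≥0∞, (p₁ = 3 ∨ p₁ = 6) → (p₂ = 3 ∨ p₂ = 6) → (p₃ = 3 ∨ p₃ = 6) →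
      (6 / 5 : ℝ≥0∞)⁻¹ = p₁⁻¹ + p₂⁻¹ + p₃⁻¹ → ∃ C' : ℝ, 0 ≤ C' ∧
      ∀ f₁ f₂ f₃ : ℝ → ℂ, Nice f₁ → Nice f₂ → Nice f₃ →
      ∀ ε R : ℝ, 0 < ε → ε < R → eLpNorm (TT ε R 1 2 3 f₁ f₂ f₃) (6 / 5) volume ≤
        ENNReal.ofReal (C' * LL ε R ^ m) * eLpNorm f₁ p₁ volume *
          eLpNorm f₂ p₂ volume * eLpNorm f₃ p₃ volume := by
    intro p₁ p₂ p₃ h₁ h₂ h₃ hsum
    have hv : ∀ {p : ℝ≥0∞}, (p = 3 ∨ p = 6) → 0 < (p⁻¹).toReal ∧ (p⁻¹).toReal < 1 / 2 := by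
      rintro p (rfl | rfl)
      · rw [i3]; norm_num
      · rw [i6]; norm_num
    have hd : ∀ i, 0 < dd p₁ p₂ p₃ (6 / 5) i := by
      intro i
      fin_cases i
      · show 0 < 1 - ((6 / 5 : ℝ≥0∞)⁻¹).toReal
        rw [i65]; norm_num
      · exact (hv h₁).1
      · exact (hv h₂).1
      · exact (hv h₃).1
    have hlt : ∀ i, dd p₁ p₂ p₃ (6 / 5) i < 1 / 2 := by
      intro i
      fin_cases i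
      · show 1 - ((6 / 5 : ℝ≥0∞)⁻¹).toReal < 1 / 2
        rw [i65]; norm_num
      · exact (hv h₁).2
      · exact (hv h₂).2
      · exact (hv h₃).2
    obtain ⟨C, hC0, hC⟩ := H _ hd hlt (dd_sum hd hsum)
    exact op_LL hd hsum hC0 hC
  have q0 : (6 / 5 : ℝ≥0∞)⁻¹ = 6⁻¹ + 3⁻¹ + 3⁻¹ := by rw [inv_sum]; ring
  have q1 : (6 / 5 : ℝ≥0∞)⁻¹ = 3⁻¹ + 6⁻¹ + 3⁻¹ := by rw [inv_sum]; ring
  obtain ⟨C₀, hC₀, H₀⟩ := key 6 3 3 (Or.inr rfl) (Or.inl rfl) (Or.inl rfl) q0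
  obtain ⟨C₁, hC₁, H₁⟩ := key 3 6 3 (Or.inl rfl) (Or.inr rfl) (Or.inl rfl) q1
  obtain ⟨C₂, hC₂, H₂⟩ := key 3 3 6 (Or.inl rfl) (Or.inl rfl) (Or.inr rfl) inv_sum
  refine tht_regular' hC₀ hC₁ hC₂ ?_ ?_ ?_
  · intro f₁ f₂ f₃ k₁ k₂ k₃ ε R hε hR
    rw [TT_rot, TT_rot]
    refine (H₀ f₃ f₁ f₂ k₃ k₁ k₂ ε R hε hR).trans (le_of_eq ?_)
    ring
  · intro f₁ f₂ f₃ k₁ k₂ k₃ ε R hε hR
    rw [TT_23]
    refine (H₁ f₁ f₃ f₂ k₁ k₃ k₂ ε R hε hR).trans (le_of_eq ?_)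
    ring
  · intro f₁ f₂ f₃ k₁ k₂ k₃ ε R hε hR
    refine (H₂ f₁ f₂ f₃ k₁ k₂ k₃ ε R hε hR).trans (le_of_eq ?_)
    ring

end Vale.Agent.P141.PL.H620
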