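import Vale.Agent.P141.PL.H620.Cplx

/-!
# P141, B10: from the form to the truncated operator
-/

namespace Vale.Agent.P141.PL.H620

open MeasureTheory Set Filter Topology
open scoped ENNReal ComplexConjugate
open Vale.Agent.P141.H97

theorem ne_of_inv {p : ℝ≥0∞} (h : 0 < (p⁻¹).toReal) : p ≠ 0 ∧ p ≠ ∞ := by
  constructor
  · rintro rfl
    simp at h
  · rintro rfl
    simp at h

/-- the exponents of the form which belong to a tuple -/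
noncomputable def dd (p₁ p₂ p₃ r : ℝ≥0∞) : Fin 4 → ℝ :=
  ![1 - (r⁻¹).toReal, (p₁⁻¹).toReal, (p₂⁻¹).toReal, (p₃⁻¹).toReal]

/-- from a bound of the form to a bound of the operator, one pair `ε, R` -/
theorem op_of_form {ε R : ℝ} (hε : 0 < ε) {A : ℝ} (hA : 0 ≤ A) {p₁ p₂ p₃ r : ℝ≥0∞}
    (hd : ∀ i, 0 < dd p₁ p₂ p₃ r i) (hsum : r⁻¹ = p₁⁻¹ + p₂⁻¹ + p₃⁻¹)
    (H : ∀ f : Fin 4 → ℝ → ℂ, (∀ i, Simp (f i)) → ‖QF ε R sl f‖ ≤
      A * ∏ i, (NN (f i) (1 / dd p₁ p₂ p₃ r i)) ^ (dd p₁ p₂ p₃ r i))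
    {f₁ f₂ f₃ : ℝ → ℂ} (k₁ : Nice f₁) (k₂ : Nice f₂) (k₃ : Nice f₃) :
    eLpNorm (TT ε R 1 2 3 f₁ f₂ f₃) r volume ≤
      ENNReal.ofReal A * eLpNorm f₁ p₁ volume * eLpNorm f₂ p₂ volume * eLpNorm f₃ p₃ volume := by
  set d := dd p₁ p₂ p₃ r with hdd
  have e0 : d 0 = 1 - (r⁻¹).toReal := rfl
  have e1 : d 1 = (p₁⁻¹).toReal := rfl
  have e2 : d 2 = (p₂⁻¹).toReal := rfl
  have e3 : d 3 = (p₃⁻¹).toReal := rfl
  have h0 := hd 0
  have h1 := hd 1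
  have h2 := hd 2
  have h3 := hd 3
  obtain ⟨z1, t1⟩ := ne_of_inv (e1 ▸ h1)
  obtain ⟨z2, t2⟩ := ne_of_inv (e2 ▸ h2)
  obtain ⟨z3, t3⟩ := ne_of_inv (e3 ▸ h3)
  have i1 : p₁⁻¹ ≠ ∞ := ENNReal.inv_ne_top.2 z1
  have i2 : p₂⁻¹ ≠ ∞ := ENNReal.inv_ne_top.2 z2
  have i3 : p₃⁻¹ ≠ ∞ := ENNReal.inv_ne_top.2 z3
  have hs : (r⁻¹).toReal = (p₁⁻¹).toReal + (p₂⁻¹).toReal + (p₃⁻¹).toReal := by
    rw [hsum, ENNReal.toReal_add (ENNReal.add_ne_top.2 ⟨i1, i2⟩) i3, ENNReal.toReal_add i1 i2]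
  obtain ⟨zr, tr⟩ := ne_of_inv (p := r) (by rw [hs]; linarith)
  have one_le : ∀ {p : ℝ≥0∞}, p ≠ ∞ → 0 < (p⁻¹).toReal → (p⁻¹).toReal ≤ 1 → 1 ≤ p := by
    intro p hp h6 hle
    rw [ENNReal.toReal_inv] at h6 hle
    have hpos : 0 < p.toReal := inv_pos.1 h6
    have h12 : 1 ≤ p.toReal := by
      have := inv_anti₀ h6 hle
      simpa using this
    rw [← ENNReal.ofReal_toReal hp, ← ENNReal.ofReal_one]
    exact ENNReal.ofReal_le_ofReal h12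
  have o1 : 1 ≤ p₁ := one_le t1 (by linarith) (by linarith)
  have o2 : 1 ≤ p₂ := one_le t2 (by linarith) (by linarith)
  have o3 : 1 ≤ p₃ := one_le t3 (by linarith) (by linarith)
  have hrr : ENNReal.ofReal (1 / (1 - d 0)) = r := by
    rw [e0, sub_sub_cancel, ENNReal.toReal_inv, one_div, inv_inv, ENNReal.ofReal_toReal tr]
  -- functions of the class `Simp`
  have hsimp : ∀ g₁ g₂ g₃ : ℝ → ℂ, Simp g₁ → Simp g₂ → Simp g₃ →
      eLpNorm (TT ε R 1 2 3 g₁ g₂ g₃) (ENNReal.ofReal (1 / (1 - d 0))) volume ≤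
        ENNReal.ofReal (A * ((NN g₁ (1 / d 1)) ^ (d 1) *
          (NN g₂ (1 / d 2)) ^ (d 2) * (NN g₃ (1 / d 3)) ^ (d 3))) := by
    intro g₁ g₂ g₃ s₁ s₂ s₃
    obtain ⟨B, hB⟩ := TT_bdd (R := R) (α₁ := 1) (α₂ := 2) (α₃ := 3) hε s₁.nice s₂.nice s₃.nice
    have n1 := NN_nonneg g₁ (1 / d 1)
    have n2 := NN_nonneg g₂ (1 / d 2)
    have n3 := NN_nonneg g₃ (1 / d 3)
    refine dual h0 (by linarith) (TT_meas s₁.nice s₂.nice s₃.nice) hB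
      (by positivity) fun f₀ s₀ => ?_
    have h := H ![f₀, g₁, g₂, g₃] (fun i => by
      fin_cases i
      · exact s₀
      · exact s₁
      · exact s₂
      · exact s₃)
    have e1 : QF ε R sl ![f₀, g₁, g₂, g₃] = ∫ x, f₀ x * TT ε R 1 2 3 g₁ g₂ g₃ x := by
      rw [QF_eq]
      exact Q4_pair hε s₀.nice s₁.nice s₂.nice s₃.nice
    rw [e1, Fin.prod_univ_four] at h
    refine h.trans (le_of_eq ?_)
    show A * ((NN f₀ (1 / d 0)) ^ (d 0) *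
      (NN g₁ (1 / d 1)) ^ (d 1) * (NN g₂ (1 / d 2)) ^ (d 2) * (NN g₃ (1 / d 3)) ^ (d 3)) = _
    ring
  have hlim : ∀ᵐ x : ℝ, Tendsto
      (fun n => TT ε R 1 2 3 (cut n f₁) (cut n f₂) (cut n f₃) x) atTop
      (𝓝 (TT ε R 1 2 3 f₁ f₂ f₃ x)) := ae_of_all _ fun x => TT_cut hε k₁ k₂ k₃ x
  obtain ⟨B₁, hB₁⟩ := k₁.bdd
  obtain ⟨B₂, hB₂⟩ := k₂.bdd
  obtain ⟨B₃, hB₃⟩ := k₃.bdd
  have c1 := fun n => cut_simp n k₁.meas hB₁
  have c2 := fun n => cut_simp n k₂.meas hB₂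
  have c3 := fun n => cut_simp n k₃.meas hB₃
  refine (Lp.eLpNorm_lim_le_liminf_eLpNorm (fun n => (TT_meas (c1 n).nice (c2 n).nice
    (c3 n).nice).aestronglyMeasurable) _ hlim).trans ?_
  refine liminf_le_of_le (by isBoundedDefault) fun b hb => ?_
  obtain ⟨n, hn⟩ := hb.exists
  refine hn.trans ?_
  have h := hsimp _ _ _ (c1 n) (c2 n) (c3 n)
  rw [hrr] at h
  refine h.trans ?_
  have conv : ∀ {p : ℝ≥0∞} {f : ℝ → ℂ}, 1 ≤ p → p ≠ ∞ → Nice (cut n f) →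
      ENNReal.ofReal ((NN (cut n f) (1 / (p⁻¹).toReal)) ^ (p⁻¹).toReal) ≤
        eLpNorm f p volume := by
    intro p f hp1 hpt hf
    rw [ENNReal.toReal_inv, one_div, inv_inv, ← elp_NN (hf.memLp hp1 hpt) hp1 hpt]
    exact eLpNorm_mono fun x => cut_norm_le n f x
  have v1 := conv o1 t1 (c1 n).nice
  have v2 := conv o2 t2 (c2 n).nice
  have v3 := conv o3 t3 (c3 n).nice
  rw [← e1] at v1
  rw [← e2] at v2
  rw [← e3] at v3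
  have x1 : 0 ≤ (NN (cut n f₁) (1 / d 1)) ^ (d 1) := Real.rpow_nonneg (NN_nonneg _ _) _
  have x2 : 0 ≤ (NN (cut n f₂) (1 / d 2)) ^ (d 2) := Real.rpow_nonneg (NN_nonneg _ _) _
  calc ENNReal.ofReal (A * ((NN (cut n f₁) (1 / d 1)) ^ (d 1) *
          (NN (cut n f₂) (1 / d 2)) ^ (d 2) * (NN (cut n f₃) (1 / d 3)) ^ (d 3)))
      = ENNReal.ofReal A * (ENNReal.ofReal
          ((NN (cut n f₁) (1 / d 1)) ^ (d 1)) * ENNReal.ofReal ((NN (cut n f₂) (1 / d 2)) ^ (d 2)) *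
          ENNReal.ofReal ((NN (cut n f₃) (1 / d 3)) ^ (d 3))) := by
        rw [ENNReal.ofReal_mul hA, ENNReal.ofReal_mul (mul_nonneg x1 x2), ENNReal.ofReal_mul x1]
    _ ≤ ENNReal.ofReal A * (eLpNorm f₁ p₁ volume *
          eLpNorm f₂ p₂ volume * eLpNorm f₃ p₃ volume) := by gcongr
    _ = _ := by ring

/-- the double logarithm -/
noncomputable def LL (ε R : ℝ) : ℝ := 1 + Real.log (2 + Real.log (R / ε))

theorem LL_ge {ε R : ℝ} (hε : 0 < ε) (hR : ε < R) : 1 ≤ LL ε R := by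
  unfold LL
  have h1 : 0 ≤ Real.log (R / ε) := Real.log_nonneg ((one_le_div hε).2 hR.le)
  have h2 : 0 ≤ Real.log (2 + Real.log (R / ε)) := Real.log_nonneg (by linarith)
  linarith

/-- the number of scales -/
theorem scales {ε R : ℝ} (hε : 0 < ε) (hR : ε < R) :
    ∃ n : ℕ, R ≤ 2 ^ n * ε ∧ 1 + Real.log (1 + n) ≤ 2 * LL ε R := by
  have hpos : 0 < R / ε := div_pos (hε.trans hR) hε
  have h1 : 0 ≤ Real.log (R / ε) := Real.log_nonneg ((one_le_div hε).2 hR.le)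
  have hl2 : 0 < Real.log 2 := Real.log_pos (by norm_num)
  refine ⟨⌈Real.log (R / ε) / Real.log 2⌉₊, ?_, ?_⟩
  · have h2 := Nat.le_ceil (Real.log (R / ε) / Real.log 2)
    rw [div_le_iff₀ hl2] at h2
    have h3 : Real.log (R / ε) ≤ Real.log (2 ^ ⌈Real.log (R / ε) / Real.log 2⌉₊) := by
      rw [Real.log_pow]; exact h2
    have h4 := (Real.log_le_log_iff hpos (by positivity)).1 h3
    rw [div_le_iff₀ hε] at h4
    exact h4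
  · have h2 := Nat.ceil_lt_add_one (show 0 ≤ Real.log (R / ε) / Real.log 2 by positivity)
    have hl2' : (1 : ℝ) / 2 ≤ Real.log 2 := by
      have := Real.log_two_gt_d9
      linarith
    have hl2'' : Real.log 2 ≤ 1 := by
      have := Real.log_two_lt_d9
      linarith
    have h3 : Real.log (R / ε) / Real.log 2 ≤ 2 * Real.log (R / ε) := by
      rw [div_le_iff₀ hl2]
      nlinarith
    have h4 : (1 : ℝ) + ⌈Real.log (R / ε) / Real.log 2⌉₊ ≤ 2 * (2 + Real.log (R / ε)) := by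
      linarith
    have h5 : Real.log (1 + (⌈Real.log (R / ε) / Real.log 2⌉₊ : ℝ))
        ≤ Real.log 2 + Real.log (2 + Real.log (R / ε)) := by
      rw [← Real.log_mul (by norm_num) (by positivity)]
      exact Real.log_le_log (by positivity) h4
    have h6 : 0 ≤ Real.log (2 + Real.log (R / ε)) := Real.log_nonneg (by linarith)
    unfold LL
    linarith

/-- the hypothesis delivered by the other blocks: power `m` of the logarithm of the number of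
scales -/
def Hyp (m : ℕ) (d : Fin 4 → ℝ) (C : ℝ) : Prop :=
  ∀ n : ℕ, Node n (C * (1 + Real.log (1 + n)) ^ m) d

/-- **B10, the form**, double logarithm -/
theorem form_LL {m : ℕ} {d : Fin 4 → ℝ} (hd : ∀ i, 0 < d i) (hs : ∑ i, d i = 1) {C : ℝ}
    (hC : 0 ≤ C) (H : Hyp m d C) : ∃ C' : ℝ, 0 ≤ C' ∧ ∀ ε R : ℝ, 0 < ε → ε < R →
      ∀ f : Fin 4 → ℝ → ℂ, (∀ j, CB (f j)) →
        ‖QF ε R sl f‖ ≤ C' * LL ε R ^ m * ∏ i, (NN (f i) (1 / d i)) ^ (d i) := by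
  obtain ⟨K, hK0, hK⟩ := form
  refine ⟨K * (C * 2 ^ m + 1), by positivity, fun ε R hε hR f hf => ?_⟩
  obtain ⟨n, hn, hlog⟩ := scales hε hR
  have hLL := LL_ge hε hR
  have h0 : 0 ≤ 1 + Real.log (1 + (n : ℝ)) := by
    have : 0 ≤ Real.log (1 + (n : ℝ)) := Real.log_nonneg (by
      have : (0 : ℝ) ≤ n := Nat.cast_nonneg n
      linarith)
    linarith
  have h1 := hK n _ d (by positivity) hd hs (H n) f hf ε R hε hR hn
  refine h1.trans ?_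
  have hP : 0 ≤ ∏ i, (NN (f i) (1 / d i)) ^ (d i) :=
    Finset.prod_nonneg fun i _ => Real.rpow_nonneg (NN_nonneg _ _) _
  refine mul_le_mul_of_nonneg_right ?_ hP
  rw [mul_assoc]
  refine mul_le_mul_of_nonneg_left ?_ hK0
  have h2 : (1 + Real.log (1 + (n : ℝ))) ^ m ≤ 2 ^ m * LL ε R ^ m := by
    rw [← mul_pow]
    exact pow_le_pow_left₀ h0 hlog m
  have h3 : 1 ≤ LL ε R ^ m := one_le_pow₀ hLL
  nlinarith

theorem dd_sum {p₁ p₂ p₃ r : ℝ≥0∞} (hd : ∀ i, 0 < dd p₁ p₂ p₃ r i)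
    (hsum : r⁻¹ = p₁⁻¹ + p₂⁻¹ + p₃⁻¹) : ∑ i, dd p₁ p₂ p₃ r i = 1 := by
  have h1 := hd 1
  have h2 := hd 2
  have h3 := hd 3
  obtain ⟨z1, t1⟩ := ne_of_inv (p := p₁) h1
  obtain ⟨z2, t2⟩ := ne_of_inv (p := p₂) h2
  obtain ⟨z3, t3⟩ := ne_of_inv (p := p₃) h3
  have i1 : p₁⁻¹ ≠ ∞ := ENNReal.inv_ne_top.2 z1
  have i2 : p₂⁻¹ ≠ ∞ := ENNReal.inv_ne_top.2 z2
  have i3 : p₃⁻¹ ≠ ∞ := ENNReal.inv_ne_top.2 z3
  have hs : (r⁻¹).toReal = (p₁⁻¹).toReal + (p₂⁻¹).toReal + (p₃⁻¹).toReal := by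
    rw [hsum, ENNReal.toReal_add (ENNReal.add_ne_top.2 ⟨i1, i2⟩) i3, ENNReal.toReal_add i1 i2]
  rw [Fin.sum_univ_four]
  show 1 - (r⁻¹).toReal + (p₁⁻¹).toReal + (p₂⁻¹).toReal + (p₃⁻¹).toReal = 1
  linarith

/-- **B10, the operator**, double logarithm -/
theorem op_LL {m : ℕ} {p₁ p₂ p₃ r : ℝ≥0∞} (hd : ∀ i, 0 < dd p₁ p₂ p₃ r i)
    (hsum : r⁻¹ = p₁⁻¹ + p₂⁻¹ + p₃⁻¹) {C : ℝ} (hC : 0 ≤ C) (H : Hyp m (dd p₁ p₂ p₃ r) C) :
    ∃ C' : ℝ, 0 ≤ C' ∧ ∀ f₁ f₂ f₃ : ℝ → ℂ, Nice f₁ → Nice f₂ → Nice f₃ →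
      ∀ ε R : ℝ, 0 < ε → ε < R → eLpNorm (TT ε R 1 2 3 f₁ f₂ f₃) r volume ≤
        ENNReal.ofReal (C' * LL ε R ^ m) * eLpNorm f₁ p₁ volume *
          eLpNorm f₂ p₂ volume * eLpNorm f₃ p₃ volume := by
  have hs := dd_sum hd hsum
  obtain ⟨C', hC'0, hC'⟩ := form_LL hd hs hC H
  refine ⟨C', hC'0, fun f₁ f₂ f₃ k₁ k₂ k₃ ε R hε hR => ?_⟩
  have hLL := LL_ge hε hR
  exact op_of_form hε (by positivity) hd hsum (fun f hf => hC' ε R hε hR f fun i =>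
    CB.of_simp (hf i)) k₁ k₂ k₃

end Vale.Agent.P141.PL.H620
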