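import Vale.Agent.P141.PL.H620.Cont

/-!
# P141, B10: the truncated form of four real functions
-/

namespace Vale.Agent.P141.PL.H620

open Finset MeasureTheory

theorem prim_scale (g : ℝ → ℝ) (a : ℝ) {t : ℝ} (ht : t ≠ 0) :
    prim (fun x => a * g (t * x)) = fun y => a / t * prim g (t * y) := by
  funext y
  unfold prim
  rw [intervalIntegral.integral_const_mul, intervalIntegral.integral_comp_mul_left _ ht, mul_zero,
    smul_eq_mul]
  ring

theorem V4_scale (w : ℝ → ℝ) (a : ℝ) {t : ℝ} (ht : t ≠ 0) :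
    V4 (fun x => a * w (t * x)) = fun y => a / t ^ 4 * V4 w (t * y) := by
  unfold V4
  rw [prim_scale w a ht, prim_scale (prim w) _ ht, prim_scale (prim (prim w)) _ ht,
    prim_scale (prim (prim (prim w))) _ ht]
  funext y
  congr 1
  field_simp

theorem Ac_scale (o : ℝ) (V : ℝ → ℝ) (a : ℝ) {t s : ℝ} (ht : t ≠ 0) (hs : s ≠ 0) :
    Ac o (fun y => a / t ^ 4 * V (t * y)) s = a * Ac o V (s * t) := by
  unfold Ac
  have e : ∀ x : ℝ, t * (s * x) = s * t * x := fun x => by ring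
  simp only [e]
  field_simp

/-- dilation -/
theorem ww_scale (f : Fin 4 → ℝ → ℝ) {t : ℝ} (ht : 0 < t) :
    ww (fun j x => f j (t * x)) = fun u => t⁻¹ * ww f (t * u) := by
  funext u
  unfold ww
  have h1 := Measure.integral_comp_mul_left (fun x => ∏ j : Fin 4, f j (x - (j : ℕ) * (t * u))) t
  rw [abs_of_pos (inv_pos.2 ht), smul_eq_mul] at h1
  rw [← h1]
  refine integral_congr_ae (ae_of_all _ fun x => ?_)
  refine Finset.prod_congr rfl fun j _ => ?_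
  have e : t * (x - (j : ℕ) * u) = t * x - (j : ℕ) * (t * u) := by ring
  simp only [e]

theorem RB.dil {f : ℝ → ℝ} (h : RB f) {t : ℝ} (ht : 0 < t) : RB fun x => f (t * x) := by
  obtain ⟨B, hB⟩ := h.bdd
  obtain ⟨M, hM⟩ := h.supp
  refine ⟨h.meas.comp (measurable_const_mul t), ⟨B, fun x => hB _⟩, M / t, fun x hx => hM _ ?_⟩
  rw [abs_mul, abs_of_pos ht]
  rw [div_lt_iff₀ ht] at hx
  linarith

/-- the single scale forms are summable -/
theorem single {n : ℕ} {B : ℝ} {d : Fin 4 → ℝ} (hT : Node n B d) (hB : 0 ≤ B)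
    (hd : ∀ i, 0 < d i) (hs : ∑ i, d i = 1) {f : Fin 4 → ℝ → ℝ} (hf : ∀ j, RB (f j)) {o : ℤ}
    (ho : o = 1 ∨ o = -1) {t : ℝ} (ht : 0 < t) :
    ∑ k ∈ Icc 1 n, |Ac o (V4 (ww f)) (2 ^ k * t)|
      ≤ B * ∏ j, (∫ x, |f j x| ^ (1 / d j)) ^ d j := by
  have hft : ∀ j, RB fun x => f j (t * x) := fun j => (hf j).dil ht
  have h1 := fun c => samp hT hB hd hs (f := fun j x => f j (t * x)) hft ho c
  have hwc := ww_cont hft
  have h2 := av4 (Icc 1 n) pts (fun k x => ((16 : ℝ) ^ k)⁻¹ * ∏ i, sg k (x i))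
    (fun k x => ((uu k o x : ℤ) : ℝ)) hwc h1 0
  -- the right side
  have hN : ∀ j, (∫ x, |f j (t * x)| ^ (1 / d j)) = t⁻¹ * ∫ x, |f j x| ^ (1 / d j) := by
    intro j
    have h3 := Measure.integral_comp_mul_left (fun x => |f j x| ^ (1 / d j)) t
    rw [abs_of_pos (inv_pos.2 ht), smul_eq_mul] at h3
    exact h3
  have hprod : ∏ j, (∫ x, |f j (t * x)| ^ (1 / d j)) ^ d j
      = t⁻¹ * ∏ j, (∫ x, |f j x| ^ (1 / d j)) ^ d j := by
    have e1 : ∀ j, (∫ x, |f j (t * x)| ^ (1 / d j)) ^ d j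
        = (t⁻¹) ^ d j * (∫ x, |f j x| ^ (1 / d j)) ^ d j := by
      intro j
      rw [hN, Real.mul_rpow (inv_nonneg.2 ht.le)
        (integral_nonneg fun x => Real.rpow_nonneg (abs_nonneg _) _)]
    simp only [e1]
    rw [Finset.prod_mul_distrib, ← Real.rpow_sum_of_pos (inv_pos.2 ht), hs, Real.rpow_one]
  rw [hprod] at h2
  -- the left side
  have hl : ∀ k ∈ Icc 1 n, |∑ x ∈ pts k, (((16 : ℝ) ^ k)⁻¹ * ∏ i, sg k (x i)) *
      df (df (df (df (V4 (ww fun j x => f j (t * x)))))) (0 + ((uu k o x : ℤ) : ℝ))|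
      = t⁻¹ * |Ac o (V4 (ww f)) (2 ^ k * t)| := by
    intro k hk
    have hk1 : 1 ≤ k := (Finset.mem_Icc.1 hk).1
    have e2 : ∀ x ∈ pts k, (((16 : ℝ) ^ k)⁻¹ * ∏ i, sg k (x i)) *
        df (df (df (df (V4 (ww fun j x => f j (t * x)))))) (0 + ((uu k o x : ℤ) : ℝ))
        = ((16 : ℝ) ^ k)⁻¹ * ((∏ i, sg k (x i)) *
        df (df (df (df (V4 (ww fun j x => f j (t * x)))))) (2 ^ k * (o - 2) + ∑ i, (x i : ℝ))) := by
      intro x _
      rw [mul_assoc]
      congr 3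
      unfold uu
      push_cast
      ring
    rw [Finset.sum_congr rfl e2, ← Finset.mul_sum, box_sum hk1, d2_four]
    rw [ww_scale f ht, V4_scale (ww f) t⁻¹ ht.ne', Ac_scale _ _ _ ht.ne' (by positivity), abs_mul,
      abs_of_pos (inv_pos.2 ht)]
  rw [Finset.sum_congr rfl hl, ← Finset.mul_sum] at h2
  have h3 : B * (t⁻¹ * ∏ j, (∫ x, |f j x| ^ (1 / d j)) ^ d j)
      = t⁻¹ * (B * ∏ j, (∫ x, |f j x| ^ (1 / d j)) ^ d j) := by ring
  rw [h3] at h2
  exact le_of_mul_le_mul_left h2 (inv_pos.2 ht)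

/-- the truncated form of four real functions -/
theorem real_form : ∃ C : ℝ, 0 ≤ C ∧ ∀ (n : ℕ) (B : ℝ) (d : Fin 4 → ℝ), 0 ≤ B →
    (∀ i, 0 < d i) → ∑ i, d i = 1 → Node n B d → ∀ f : Fin 4 → ℝ → ℝ, (∀ j, RB (f j)) →
    ∀ ε R : ℝ, 0 < ε → ε < R → R ≤ 2 ^ n * ε →
      |∫ u in ε..R, (ww f u - ww f (-u)) / u|
        ≤ C * (B + 1) * ∏ j, (∫ x, |f j x| ^ (1 / d j)) ^ d j := by
  obtain ⟨C, hC0, hC⟩ := cal4
  refine ⟨C, hC0, fun n B d hB hd hs hT f hf ε R hε hR hn => ?_⟩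
  have h := hC (ww f) (ww_cont hf) _ _ (ww_le hf hd hs) n
    (fun t ht => by
      have := single hT hB hd hs hf (o := 1) (Or.inl rfl) ht
      simpa only [Int.cast_one] using this)
    (fun t ht => by
      have := single hT hB hd hs hf (o := -1) (Or.inr rfl) ht
      simpa only [Int.cast_neg, Int.cast_one] using this) ε R hε hR hn
  refine h.trans (le_of_eq ?_)
  ring

end Vale.Agent.P141.PL.H620
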