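import Vale.Agent.P141.PL.H571.Node

/-!
# P141: the density step with a constant uniform in the exponents `d j ≤ D`
-/

namespace Vale.Agent.P141.PL.H620

open Finset Vale.Agent.P141.PL.H571

theorem hl_unif {q p : ℝ} (hq : 0 < q) (hqp : q < p) (f : ℤ → ℝ) (hf : f.support.Finite) (n : ℕ)
    (X : Finset ℤ) : ∑ x ∈ X, RM q f n 0 x ^ p ≤
      (4 ^ (p / q) * (2 ^ (p / q) * (2 * ((p / q) / (p / q - 1)) ^ (p / q)))) *
        ∑' x, |f x| ^ p := by
  set r := p / q with hr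
  have hr1 : 1 < r := (one_lt_div hq).2 hqp
  have hr0 : 0 < r := by linarith
  set c := (r / (r - 1)) ^ r with hc
  have hc0 : 0 < c := Real.rpow_pos_of_pos (div_pos hr0 (by linarith)) _
  obtain ⟨m, hm⟩ : ∃ m : ℕ, n + 7 ≤ 2 * m := ⟨n + 7, by omega⟩
  set g : ℤ → ℝ := fun y => |f y| ^ q with hgdef
  set g' : ℤ → ℝ := fun y => |f (y + tau m)| ^ q with hgdef'
  have hg : ∀ y, 0 ≤ g y := fun y => Real.rpow_nonneg (abs_nonneg _) _
  have hg' : ∀ y, 0 ≤ g' y := fun y => Real.rpow_nonneg (abs_nonneg _) _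
  have hgs : g.support.Finite := hf.subset fun x hx => by
    intro h0
    apply hx
    simp only [hgdef, h0, abs_zero, Real.zero_rpow hq.ne']
  have hgs' : g'.support.Finite := by
    have : g'.support ⊆ (fun y => y + tau m) ⁻¹' f.support := fun x hx => by
      intro h0
      apply hx
      simp only [hgdef', h0, abs_zero, Real.zero_rpow hq.ne']
    exact (hf.preimage (fun a _ b _ h => by simpa using h)).subset this
  have hgr : ∀ y, g y ^ r = |f y| ^ p := fun y => by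
    simp only [hgdef]
    rw [← Real.rpow_mul (abs_nonneg _), hr, mul_div_cancel₀ _ hq.ne']
  have hgr' : ∑' y, g' y ^ r = ∑' y, |f y| ^ p := by
    rw [← (Equiv.addRight (tau m)).tsum_eq (fun y => |f y| ^ p)]
    refine tsum_congr fun y => ?_
    simp only [hgdef', Equiv.coe_addRight]
    rw [← Real.rpow_mul (abs_nonneg _), hr, mul_div_cancel₀ _ hq.ne']
  have h1 : ∀ x : ℤ, RM q f n 0 x ^ p ≤ 4 ^ r * (2 ^ r * (S g (n + 7) (n + 7) x ^ r +
      S g' (n + 7) (n + 7) (x - tau m) ^ r)) := by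
    intro x
    have hS1 := S_nonneg hg (n + 7) (n + 7) x
    have hS2 := S_nonneg hg' (n + 7) (n + 7) (x - tau m)
    have e : RM q f n 0 x ^ p = RMq q f n 0 x ^ r := by
      rw [RM, ← Real.rpow_mul (RMq_nonneg _ _ _ _ _), hr, one_div_mul_eq_div]
    rw [e]
    refine (Real.rpow_le_rpow (RMq_nonneg _ _ _ _ _) (RMq_le_S q f hm x) hr0.le).trans ?_
    rw [Real.mul_rpow (by norm_num) (by positivity)]
    refine mul_le_mul_of_nonneg_left ?_ (by positivity)
    -- (a + b)^r ≤ 2^r (a^r + b^r)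
    set a := S g (n + 7) (n + 7) x
    set b := S g' (n + 7) (n + 7) (x - tau m)
    rcases le_total a b with hab | hab
    · calc (a + b) ^ r ≤ (2 * b) ^ r := Real.rpow_le_rpow (by positivity) (by linarith) hr0.le
        _ = 2 ^ r * b ^ r := Real.mul_rpow (by norm_num) hS2
        _ ≤ 2 ^ r * (a ^ r + b ^ r) := by
          refine mul_le_mul_of_nonneg_left ?_ (by positivity)
          linarith [Real.rpow_nonneg hS1 r]
    · calc (a + b) ^ r ≤ (2 * a) ^ r := Real.rpow_le_rpow (by positivity) (by linarith) hr0.le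
        _ = 2 ^ r * a ^ r := Real.mul_rpow (by norm_num) hS1
        _ ≤ 2 ^ r * (a ^ r + b ^ r) := by
          refine mul_le_mul_of_nonneg_left ?_ (by positivity)
          linarith [Real.rpow_nonneg hS2 r]
  have h2 := doob hg hgs hr1 (n + 7) X
  have h3 : ∑ x ∈ X, S g' (n + 7) (n + 7) (x - tau m) ^ r ≤ c * ∑' x, g' x ^ r := by
    have := doob hg' hgs' hr1 (n + 7) (X.image fun x => x - tau m)
    rwa [Finset.sum_image (fun a _ b _ h => by simpa using h)] at this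
  calc ∑ x ∈ X, RM q f n 0 x ^ p ≤ ∑ x ∈ X, 4 ^ r * (2 ^ r * (S g (n + 7) (n + 7) x ^ r +
      S g' (n + 7) (n + 7) (x - tau m) ^ r)) := sum_le_sum fun x _ => h1 x
    _ = 4 ^ r * (2 ^ r * (∑ x ∈ X, S g (n + 7) (n + 7) x ^ r +
        ∑ x ∈ X, S g' (n + 7) (n + 7) (x - tau m) ^ r)) := by
        rw [← mul_sum, ← mul_sum, sum_add_distrib]
    _ ≤ 4 ^ r * (2 ^ r * (c * ∑' x, g x ^ r + c * ∑' x, g' x ^ r)) := by
        refine mul_le_mul_of_nonneg_left ?_ (by positivity)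
        refine mul_le_mul_of_nonneg_left ?_ (by positivity)
        exact add_le_add h2 h3
    _ = 4 ^ r * (2 ^ r * (2 * c)) * ∑' x, |f x| ^ p := by
        rw [hgr', tsum_congr hgr]
        ring

theorem tops_unif {ι : Type*} [Fintype ι] {q D : ℝ} (hq : 0 < q) (hD : D * q < 1) :
    ∃ C : ℝ, 0 < C ∧ ∀ d : ι → ℝ, (∀ j, 0 < d j) → (∀ j, d j ≤ D) → ∑ j, d j = 1 →
      ∀ (f : ι → ℤ → ℝ), (∀ j, (f j).support.Finite) → ∀ (n : ℕ) (w : ℕ → ℤ → ℝ)
      (P : ℝ), 0 ≤ P →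
      (∀ k v, k ≤ n → (∃ j, RM q (f j) n k v ≤ 0) → w k v = 0) →
      (∀ K ≤ n, ∀ V : ℤ, ∀ a : ι → ℝ, (∀ j, 0 < a j) → ∀ 𝒩 : Finset (ℕ × ℤ),
        (∀ N ∈ 𝒩, N.1 ≤ K ∧ N.2 / 2 ^ (K - N.1) = V ∧ ∀ j, RM q (f j) n N.1 N.2 ≤ a j) →
        ∑ N ∈ 𝒩, w N.1 N.2 ≤ P * 2 ^ K * ∏ j, a j) →
      ∀ 𝒮 : Finset (ℕ × ℤ), (∀ N ∈ 𝒮, N.1 ≤ n) →
        ∑ N ∈ 𝒮, w N.1 N.2 ≤ C * P * ∏ j, (∑' x, |f j x| ^ (1 / d j)) ^ d j := by
  have hD1 : 0 < 1 - D * q := by linarith
  set K : ℝ := 4 ^ (1 / q) * (2 ^ (1 / q) * (2 * (1 / (1 - D * q)) ^ (1 / q))) with hK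
  have hK0 : 0 < K := by
    have : (0 : ℝ) < (1 / (1 - D * q)) ^ (1 / q) := Real.rpow_pos_of_pos (by positivity) _
    positivity
  refine ⟨2 * 2 ^ Fintype.card ι * K ^ Fintype.card ι, by positivity, ?_⟩
  intro d hd hdD hd1 f hf n w P hP hw0 hroot 𝒮 h𝒮
  have hdq : ∀ j, d j * q < 1 := fun j =>
    (mul_le_mul_of_nonneg_right (hdD j) hq.le).trans_lt hD
  have hp : ∀ j, q < 1 / d j := fun j => by
    rw [lt_div_iff₀ (hd j)]
    linarith [hdq j]
  set C : ι → ℝ := fun j => 4 ^ (1 / d j / q) * (2 ^ (1 / d j / q) *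
    (2 * ((1 / d j / q) / (1 / d j / q - 1)) ^ (1 / d j / q))) with hCdef
  have hr1 : ∀ j, 1 < 1 / d j / q := fun j => (one_lt_div hq).2 (hp j)
  have hC0 : ∀ j, 0 < C j := fun j => by
    have h1 := hr1 j
    have h2 : (0 : ℝ) < ((1 / d j / q) / (1 / d j / q - 1)) ^ (1 / d j / q) :=
      Real.rpow_pos_of_pos (div_pos (by linarith) (by linarith)) _
    simp only [hCdef]
    positivity
  have hC := fun j (f : ℤ → ℝ) (hf : f.support.Finite) (n : ℕ) (X : Finset ℤ) =>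
    hl_unif hq (hp j) f hf n X
  have hCK : ∀ j, C j ^ d j ≤ K := by
    intro j
    have h1 := hr1 j
    have hdj := hd j
    have e1 : 1 / d j / q * d j = 1 / q := by field_simp
    have h3 : (0 : ℝ) < (1 / d j / q) / (1 / d j / q - 1) :=
      div_pos (by linarith) (by linarith)
    have e2 : (1 / d j / q) / (1 / d j / q - 1) = 1 / (1 - d j * q) := by
      have h4 : (1 : ℝ) - d j * q ≠ 0 := by linarith [hdq j]
      have h5 : 1 / d j / q - 1 ≠ 0 := by linarith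
      have h6 : 1 / d j / q - 1 = (1 - d j * q) / (d j * q) := by field_simp
      rw [h6]
      field_simp
    simp only [hCdef]
    rw [Real.mul_rpow (by positivity) (by positivity), Real.mul_rpow (by positivity) (by positivity),
      Real.mul_rpow (by norm_num) (Real.rpow_nonneg h3.le _), ← Real.rpow_mul (by norm_num),
      ← Real.rpow_mul (by norm_num), ← Real.rpow_mul h3.le, e1, e2, hK]
    have h7 : (2 : ℝ) ^ d j ≤ 2 := by
      have h8 : d j ≤ 1 := by
        rw [← hd1]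
        exact single_le_sum (fun i _ => (hd i).le) (mem_univ j)
      calc (2 : ℝ) ^ d j ≤ 2 ^ (1 : ℝ) := Real.rpow_le_rpow_of_exponent_le (by norm_num) h8
        _ = 2 := Real.rpow_one 2
    have h9 : (1 / (1 - d j * q)) ^ (1 / q) ≤ (1 / (1 - D * q)) ^ (1 / q) := by
      refine Real.rpow_le_rpow (by have := hdq j; exact div_nonneg zero_le_one (by linarith)) ?_
        (by positivity)
      refine one_div_le_one_div_of_le hD1 ?_
      have := mul_le_mul_of_nonneg_right (hdD j) hq.le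
      linarith
    have h10 : (0 : ℝ) ≤ (1 / (1 - d j * q)) ^ (1 / q) :=
      Real.rpow_nonneg (div_nonneg zero_le_one (by linarith [hdq j])) _
    gcongr
  obtain ⟨X, hX⟩ := stop_abs n (fun j k v => RM q (f j) n k v)
    (fun j k k' v h1 _ => RM_mono hq (f j) h1 v) w P hP hw0 hroot 𝒮 h𝒮
  refine hX.trans ?_
  have h1 := holder_fin X (fun j x => RM q (f j) n 0 x) (fun j x => RM_nonneg _ _ _ _ _) d hd hd1
  have h2 : ∏ j, (∑ x ∈ X, RM q (f j) n 0 x ^ (1 / d j)) ^ d j ≤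
      ∏ j, (C j ^ d j * (∑' x, |f j x| ^ (1 / d j)) ^ d j) := by
    refine prod_le_prod (fun j _ => Real.rpow_nonneg
      (sum_nonneg fun x _ => Real.rpow_nonneg (RM_nonneg _ _ _ _ _) _) _) fun j _ => ?_
    rw [← Real.mul_rpow (hC0 j).le (tsum_nonneg fun x => Real.rpow_nonneg (abs_nonneg _) _)]
    exact Real.rpow_le_rpow (sum_nonneg fun x _ => Real.rpow_nonneg (RM_nonneg _ _ _ _ _) _)
      (hC j (f j) (hf j) n X) (hd j).le
  rw [prod_mul_distrib] at h2
  have hprod : ∏ j, C j ^ d j ≤ K ^ Fintype.card ι := by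
    calc ∏ j, C j ^ d j ≤ ∏ _j : ι, K :=
          prod_le_prod (fun j _ => Real.rpow_nonneg (hC0 j).le _) fun j _ => hCK j
      _ = K ^ Fintype.card ι := by rw [prod_const, card_univ]
  have hnn : 0 ≤ ∏ j, (∑' x, |f j x| ^ (1 / d j)) ^ d j :=
    prod_nonneg fun j _ => Real.rpow_nonneg (tsum_nonneg fun x =>
      Real.rpow_nonneg (abs_nonneg _) _) _
  calc P * (2 * 2 ^ Fintype.card ι) * ∑ x ∈ X, ∏ j, RM q (f j) n 0 x
      ≤ P * (2 * 2 ^ Fintype.card ι) * ((∏ j, C j ^ d j) *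
        ∏ j, (∑' x, |f j x| ^ (1 / d j)) ^ d j) :=
        mul_le_mul_of_nonneg_left (h1.trans h2) (by positivity)
    _ ≤ P * (2 * 2 ^ Fintype.card ι) * (K ^ Fintype.card ι *
        ∏ j, (∑' x, |f j x| ^ (1 / d j)) ^ d j) := by
        refine mul_le_mul_of_nonneg_left ?_ (by positivity)
        exact mul_le_mul_of_nonneg_right hprod hnn
    _ = (2 * 2 ^ Fintype.card ι * K ^ Fintype.card ι) * P *
        ∏ j, (∑' x, |f j x| ^ (1 / d j)) ^ d j := by
        ring

theorem node_of_root_unif {q D : ℝ} (hq : 2 < q) (hD : D * q < 1) :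
    ∃ C : ℝ, 0 < C ∧ ∀ d : Fin 4 → ℝ, (∀ j, 0 < d j) → (∀ j, d j ≤ D) → ∑ j, d j = 1 →
      ∀ (n : ℕ) (H P : ℝ), 0 < H → 0 ≤ P → RootTh n H P →
      Node n (C * (P + n * H ^ (-(q - 2) / 2))) d := by
  classical
  have hq0 : 0 < q := by linarith
  obtain ⟨C, hC, htops⟩ := tops_unif (ι := Fin 4) hq0 hD
  refine ⟨C * 2 ^ 12, by positivity, ?_⟩
  intro d hd hdD hd1 n H P hH hP hroot f hf o ho V
  set w : ℕ → ℤ → ℝ := fun k v =>
    if 1 ≤ k then ((4 : ℝ) ^ k)⁻¹ * |loc1 k (nn o v 0 0) f| else 0 with hw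
  set P' : ℝ := P + 2 ^ 12 * n * H ^ (-(q - 2) / 2) with hP'
  have hHp : 0 ≤ H ^ (-(q - 2) / 2) := Real.rpow_nonneg hH.le _
  have hP'0 : 0 ≤ P' := by positivity
  -- vanishing
  have hw0 : ∀ k v, k ≤ n → (∃ j, RM q (f j) n k v ≤ 0) → w k v = 0 := by
    rintro k v hk ⟨j, hj⟩
    have h1 := av_le_RM hq0 (f j) (le_refl k) hk v
    rw [Nat.sub_self, pow_zero, Int.ediv_one, le_antisymm hj (RM_nonneg _ _ _ _ _),
      Real.zero_rpow hq0.ne'] at h1
    have h2 : ∑ y ∈ W k v, |f j y| ^ q ≤ 0 := by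
      rw [av, div_le_iff₀ (by positivity), zero_mul] at h1
      exact h1
    have h3 : ∀ y ∈ W k v, |f j y| = 0 := by
      intro y hy
      have h4 := (sum_eq_zero_iff_of_nonneg fun z _ => Real.rpow_nonneg (abs_nonneg (f j z)) q).1
        (le_antisymm h2 (sum_nonneg fun z _ => Real.rpow_nonneg (abs_nonneg _) _)) y hy
      exact (Real.rpow_eq_zero (abs_nonneg _) hq0.ne').1 h4
    have h5 : ∑ y ∈ W k v, |f j y| ^ 2 = 0 :=
      sum_eq_zero fun y hy => by rw [h3 y hy]; norm_num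
    have h6 := abs_loc1_le (k := k) (v := v) ho f
    rw [prod_eq_zero (mem_univ j) (by rw [h5, Real.sqrt_zero]), mul_zero] at h6
    simp only [hw]
    split_ifs
    · rw [le_antisymm h6 (abs_nonneg _), mul_zero]
    · rfl
  -- the root estimate
  have hR : ∀ K ≤ n, ∀ V : ℤ, ∀ a : Fin 4 → ℝ, (∀ j, 0 < a j) → ∀ 𝒩 : Finset (ℕ × ℤ),
      (∀ N ∈ 𝒩, N.1 ≤ K ∧ N.2 / 2 ^ (K - N.1) = V ∧ ∀ j, RM q (f j) n N.1 N.2 ≤ a j) →
      ∑ N ∈ 𝒩, w N.1 N.2 ≤ P' * 2 ^ K * ∏ j, a j := by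
    intro K hK V a ha 𝒩 h𝒩
    set g : Fin 4 → ℤ → ℝ := fun j x => (a j)⁻¹ * f j x with hg
    set s : Fin 4 → ℤ → ℝ := fun j x => if |g j x| ≤ H then g j x else 0 with hs
    set b : Fin 4 → ℤ → ℝ := fun j x => if |g j x| ≤ H then 0 else g j x with hb
    have hgsb : ∀ j x, g j x = s j x + b j x := by
      intro j x
      simp only [hs, hb]
      split_ifs <;> simp
    -- the closure
    set 𝒩' : Finset (ℕ × ℤ) := ((Icc 1 K).biUnion fun k =>
      (Ico (2 ^ (K - k) * V) (2 ^ (K - k) * (V + 1))).image fun v => (k, v)).filter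
        fun N => ∀ j, RM q (f j) n N.1 N.2 ≤ a j with h𝒩'
    have hmem : ∀ N : ℕ × ℤ, N ∈ 𝒩' ↔ (1 ≤ N.1 ∧ N.1 ≤ K ∧ N.2 / 2 ^ (K - N.1) = V) ∧
        ∀ j, RM q (f j) n N.1 N.2 ≤ a j := by
      rintro ⟨k, v⟩
      rw [h𝒩', mem_filter, mem_biUnion]
      constructor
      · rintro ⟨⟨k', hk', hv'⟩, h2⟩
        obtain ⟨v', hv'', hkv⟩ := mem_image.1 hv'
        rw [Prod.mk.injEq] at hkv
        obtain ⟨rfl, rfl⟩ := hkv
        rw [mem_cell] at hv''
        rw [mem_Icc] at hk'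
        exact ⟨⟨hk'.1, hk'.2, hv''⟩, h2⟩
      · rintro ⟨⟨h1, h2, h3⟩, h4⟩
        exact ⟨⟨k, mem_Icc.2 ⟨h1, h2⟩, mem_image.2 ⟨v, mem_cell.2 h3, rfl⟩⟩, h4⟩
    -- averages of g
    have hgq : ∀ N ∈ 𝒩', ∀ j, ∑ y ∈ W N.1 N.2, |g j y| ^ q ≤ 2 ^ (N.1 + 5) := by
      intro N hN j
      obtain ⟨⟨_, hNK, _⟩, hN2⟩ := (hmem N).1 hN
      have h1 := av_le_RM hq0 (f j) (le_refl N.1) (hNK.trans hK) N.2
      rw [Nat.sub_self, pow_zero, Int.ediv_one] at h1
      have h2 : RM q (f j) n N.1 N.2 ^ q ≤ a j ^ q :=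
        Real.rpow_le_rpow (RM_nonneg _ _ _ _ _) (hN2 j) hq0.le
      have h3 := h1.trans h2
      rw [av, div_le_iff₀ (by positivity)] at h3
      have h4 : ∑ y ∈ W N.1 N.2, |g j y| ^ q = ((a j)⁻¹) ^ q * ∑ y ∈ W N.1 N.2, |f j y| ^ q := by
        rw [mul_sum]
        refine sum_congr rfl fun y _ => ?_
        simp only [hg]
        rw [abs_mul, abs_of_pos (inv_pos.2 (ha j)),
          Real.mul_rpow (inv_pos.2 (ha j)).le (abs_nonneg _)]
      rw [h4]
      refine (mul_le_mul_of_nonneg_left h3 (Real.rpow_nonneg (inv_pos.2 (ha j)).le _)).trans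
        (le_of_eq ?_)
      rw [← mul_assoc, ← Real.mul_rpow (inv_pos.2 (ha j)).le (ha j).le,
        inv_mul_cancel₀ (ha j).ne', Real.one_rpow, one_mul]
    have hg2 : ∀ N ∈ 𝒩', ∀ j, ∑ y ∈ W N.1 N.2, |g j y| ^ 2 ≤ 2 ^ (N.1 + 5) := by
      intro N hN j
      have h1 : ∑ y ∈ W N.1 N.2, |g j y| ^ 2 ≤
          ∑ y ∈ W N.1 N.2, ((1 - 2 / q) + 2 / q * |g j y| ^ q) :=
        sum_le_sum fun y _ => sq_le_young hq (abs_nonneg _)
      refine h1.trans ?_
      rw [sum_add_distrib, sum_const, card_W, ← mul_sum, nsmul_eq_mul]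
      have h2 := mul_le_mul_of_nonneg_left (hgq N hN j) (by positivity : 0 ≤ 2 / q)
      push_cast
      nlinarith
    have hs2 : ∀ N ∈ 𝒩', ∀ j, ∑ y ∈ W N.1 N.2, |s j y| ^ 2 ≤ 2 ^ (N.1 + 5) := by
      intro N hN j
      refine (sum_le_sum fun y _ => ?_).trans (hg2 N hN j)
      simp only [hs]
      split_ifs
      · exact le_refl _
      · rw [abs_zero, zero_pow two_ne_zero]; exact sq_nonneg _
    have hb2 : ∀ N ∈ 𝒩', ∀ j, ∑ y ∈ W N.1 N.2, |b j y| ^ 2 ≤ 2 ^ (N.1 + 5) * H ^ (2 - q) := by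
      intro N hN j
      have h1 : ∑ y ∈ W N.1 N.2, |b j y| ^ 2 ≤ ∑ y ∈ W N.1 N.2, H ^ (2 - q) * |g j y| ^ q := by
        refine sum_le_sum fun y _ => ?_
        simp only [hb]
        split_ifs with h
        · rw [abs_zero, zero_pow two_ne_zero]
          exact mul_nonneg (Real.rpow_nonneg hH.le (2 - q)) (Real.rpow_nonneg (abs_nonneg _) q)
        · exact trunc_sq hq hH (lt_of_not_ge h)
      refine h1.trans ?_
      rw [← mul_sum, mul_comm]
      exact mul_le_mul_of_nonneg_right (hgq N hN j) (Real.rpow_nonneg hH.le _)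
    -- the error
    have hsq : √(H ^ (2 - q)) = H ^ (-(q - 2) / 2) := by
      rw [Real.sqrt_eq_rpow, ← Real.rpow_mul hH.le]
      congr 1
      ring
    have herr : ∀ N ∈ 𝒩', ((4 : ℝ) ^ N.1)⁻¹ * |loc1 N.1 (nn o N.2 0 0) g| ≤
        ((4 : ℝ) ^ N.1)⁻¹ * |loc1 N.1 (nn o N.2 0 0) s| +
          2 ^ 12 * H ^ (-(q - 2) / 2) * 2 ^ N.1 := by
      intro N hN
      have hG := hg2 N hN
      have hS := hs2 N hN
      have hB := hb2 N hN
      have e0 := single_scale (k := N.1) (v := N.2) ho ![b 0, g 1, g 2, g 3]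
        ![H ^ (2 - q), 1, 1, 1] (by
          intro j; fin_cases j
          · simpa using hB 0
          · simpa using hG 1
          · simpa using hG 2
          · simpa using hG 3)
      have e1 := single_scale (k := N.1) (v := N.2) ho ![s 0, b 1, g 2, g 3]
        ![1, H ^ (2 - q), 1, 1] (by
          intro j; fin_cases j
          · simpa using hS 0
          · simpa using hB 1
          · simpa using hG 2
          · simpa using hG 3)
      have e2 := single_scale (k := N.1) (v := N.2) ho ![s 0, s 1, b 2, g 3]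
        ![1, 1, H ^ (2 - q), 1] (by
          intro j; fin_cases j
          · simpa using hS 0
          · simpa using hS 1
          · simpa using hB 2
          · simpa using hG 3)
      have e3 := single_scale (k := N.1) (v := N.2) ho ![s 0, s 1, s 2, b 3]
        ![1, 1, 1, H ^ (2 - q)] (by
          intro j; fin_cases j
          · simpa using hS 0
          · simpa using hS 1
          · simpa using hS 2
          · simpa using hB 3)
      simp only [Fin.prod_univ_four, Matrix.cons_val_zero, Matrix.cons_val_one, Matrix.cons_val,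
        Real.sqrt_one, mul_one, one_mul, hsq] at e0 e1 e2 e3
      rw [loc1_tele N.1 (nn o N.2 0 0) g s b hgsb]
      set t0 := loc1 N.1 (nn o N.2 0 0) ![b 0, g 1, g 2, g 3]
      set t1 := loc1 N.1 (nn o N.2 0 0) ![s 0, b 1, g 2, g 3]
      set t2 := loc1 N.1 (nn o N.2 0 0) ![s 0, s 1, b 2, g 3]
      set t3 := loc1 N.1 (nn o N.2 0 0) ![s 0, s 1, s 2, b 3]
      have habs : |loc1 N.1 (nn o N.2 0 0) s + (t0 + t1 + t2 + t3)| ≤
          |loc1 N.1 (nn o N.2 0 0) s| + (|t0| + |t1| + |t2| + |t3|) := by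
        refine (abs_add_le _ _).trans (add_le_add le_rfl ?_)
        refine (abs_add_le _ _).trans (add_le_add ?_ le_rfl)
        refine (abs_add_le _ _).trans (add_le_add ?_ le_rfl)
        exact abs_add_le _ _
      refine (mul_le_mul_of_nonneg_left habs (by positivity)).trans ?_
      rw [mul_add, mul_add, mul_add, mul_add]
      nlinarith
    -- sum of the errors
    have hcount : ∑ N ∈ 𝒩', (2 : ℝ) ^ N.1 ≤ n * 2 ^ K := by
      have h1 : ∑ N ∈ 𝒩', (2 : ℝ) ^ N.1 ≤ ∑ N ∈ ((Icc 1 K).biUnion fun k =>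
          (Ico (2 ^ (K - k) * V) (2 ^ (K - k) * (V + 1))).image fun v => (k, v)), (2 : ℝ) ^ N.1 :=
        sum_le_sum_of_subset_of_nonneg (filter_subset _ _) fun _ _ _ => by positivity
      refine h1.trans ?_
      rw [sum_biUnion]
      · have h2 : ∀ k ∈ Icc 1 K, ∑ N ∈ (Ico (2 ^ (K - k) * V) (2 ^ (K - k) * (V + 1))).image
            (fun v => ((k, v) : ℕ × ℤ)), (2 : ℝ) ^ N.1 = 2 ^ K := by
          intro k hk
          rw [mem_Icc] at hk
          rw [sum_image (fun x _ y _ hxy => (Prod.mk.inj hxy).2)]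
          simp only
          rw [sum_const, card_cell, nsmul_eq_mul]
          push_cast
          rw [← pow_add]
          congr 1
          omega
        rw [sum_congr rfl h2, sum_const, Nat.card_Icc, nsmul_eq_mul, Nat.add_sub_cancel]
        have : (K : ℝ) ≤ n := by exact_mod_cast hK
        exact mul_le_mul_of_nonneg_right this (by positivity)
      · intro k _ k' _ hkk'
        refine disjoint_left.2 fun N hN hN' => hkk' ?_
        obtain ⟨_, _, rfl⟩ := mem_image.1 hN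
        obtain ⟨_, _, h⟩ := mem_image.1 hN'
        exact (Prod.mk.inj h).1.symm
    -- the main term
    have hmain : ∑ N ∈ 𝒩', ((4 : ℝ) ^ N.1)⁻¹ * |loc1 N.1 (nn o N.2 0 0) s| ≤ P * 2 ^ K := by
      refine hroot s ?_ o ho K hK V 𝒩' ?_ ?_ ?_ hs2
      · intro j
        refine (hf j).subset fun x hx => ?_
        simp only [Function.mem_support] at hx ⊢
        intro h0
        apply hx
        simp only [hs, hg, h0, mul_zero, ite_self]
      · intro N hN
        exact ((hmem N).1 hN).1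
      · intro N hN k' h1 h2
        obtain ⟨⟨h3, h4, h5⟩, h6⟩ := (hmem N).1 hN
        rw [hmem]
        refine ⟨⟨h3.trans h1, h2, ?_⟩, fun j => (RM_mono hq0 (f j) h1 N.2).trans (h6 j)⟩
        simp only
        rw [← ediv_pow_add, ← h5]
        congr 2
        omega
      · intro j x
        simp only [hs]
        split_ifs with h
        · exact h
        · rw [abs_zero]; exact hH.le
    have htot : ∑ N ∈ 𝒩', ((4 : ℝ) ^ N.1)⁻¹ * |loc1 N.1 (nn o N.2 0 0) g| ≤ P' * 2 ^ K := by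
      refine (sum_le_sum herr).trans ?_
      rw [sum_add_distrib, ← mul_sum]
      have := mul_le_mul_of_nonneg_left hcount
        (by positivity : 0 ≤ 2 ^ 12 * H ^ (-(q - 2) / 2))
      rw [hP']
      nlinarith
    -- back to f
    have hfg : ∀ k v, |loc1 k (nn o v 0 0) f| = (∏ j, a j) * |loc1 k (nn o v 0 0) g| := by
      intro k v
      have h1 : loc1 k (nn o v 0 0) f = loc1 k (nn o v 0 0) (fun j x => a j * g j x) := by
        congr 1
        funext j x
        simp only [hg]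
        rw [mul_inv_cancel_left₀ (ha j).ne']
      rw [h1, loc1_smul, abs_mul, abs_of_pos (prod_pos fun j _ => ha j)]
    have hlast : ∑ N ∈ 𝒩, w N.1 N.2 ≤ ∑ N ∈ 𝒩', w N.1 N.2 := by
      have h1 : ∑ N ∈ 𝒩, w N.1 N.2 = ∑ N ∈ 𝒩.filter (fun N => 1 ≤ N.1), w N.1 N.2 := by
        rw [sum_filter]
        refine sum_congr rfl fun N _ => ?_
        simp only [hw]
        split_ifs <;> rfl
      rw [h1]
      refine sum_le_sum_of_subset_of_nonneg ?_ fun N _ _ => ?_
      · intro N hN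
        rw [mem_filter] at hN
        obtain ⟨h2, h3, h4⟩ := h𝒩 N hN.1
        exact (hmem N).2 ⟨⟨hN.2, h2, h3⟩, h4⟩
      · simp only [hw]
        split_ifs
        · positivity
        · exact le_rfl
    refine hlast.trans ?_
    have h2 : ∑ N ∈ 𝒩', w N.1 N.2 =
        (∏ j, a j) * ∑ N ∈ 𝒩', ((4 : ℝ) ^ N.1)⁻¹ * |loc1 N.1 (nn o N.2 0 0) g| := by
      rw [mul_sum]
      refine sum_congr rfl fun N hN => ?_
      simp only [hw]
      rw [if_pos ((hmem N).1 hN).1.1, hfg]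
      ring
    rw [h2, mul_comm]
    exact mul_le_mul_of_nonneg_right htot (prod_nonneg fun j _ => (ha j).le)
  -- conclusion
  have h := htops d hd hdD hd1 f hf n w P' hP'0 hw0 hR (Icc 1 n ×ˢ Icc (-(V : ℤ)) V) (by
    intro N hN
    exact (mem_Icc.1 (mem_product.1 hN).1).2)
  rw [sum_product] at h
  have h1 : ∑ k ∈ Icc 1 n, ((4 : ℝ) ^ k)⁻¹ * ∑ v ∈ Icc (-(V : ℤ)) V, |loc1 k (nn o v 0 0) f| =
      ∑ k ∈ Icc 1 n, ∑ v ∈ Icc (-(V : ℤ)) V, w k v := by
    refine sum_congr rfl fun k hk => ?_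
    rw [mul_sum]
    refine sum_congr rfl fun v _ => ?_
    simp only [hw]
    rw [if_pos (mem_Icc.1 hk).1]
  rw [h1]
  refine h.trans ?_
  refine mul_le_mul_of_nonneg_right ?_ (prod_nonneg fun j _ => Real.rpow_nonneg
    (tsum_nonneg fun x => Real.rpow_nonneg (abs_nonneg _) _) _)
  rw [hP']
  have : (0 : ℝ) ≤ n := Nat.cast_nonneg n
  nlinarith [mul_nonneg hC.le hP, mul_nonneg (mul_nonneg hC.le this) hHp]

end Vale.Agent.P141.PL.H620
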