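import Vale.Agent.P141.PL.H620.UnifNode
import Vale.Agent.P141.PL.H620.Full
import Vale.Agent.P141.PL.H95.All
import Vale.Agent.P141.PL.H990.Fin

/-!
# P141: constants uniform in the exponents `d j ≤ D < 1 / 2`
-/

namespace Vale.Agent.P141.PL.H620

open MeasureTheory Set Filter Topology
open scoped ENNReal ComplexConjugate SchwartzMap
open Vale.Agent.P141.H97 Vale.Agent.P141.H115 Vale.Agent.P141.PL.H571

/-- the bounds on the nodes with a constant uniform in the exponents `d j ≤ D` -/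
def HypU (m : ℕ) : Prop := ∀ D : ℝ, D < 1 / 2 → ∃ C : ℝ, 0 ≤ C ∧ ∀ d : Fin 4 → ℝ,
  (∀ j, 0 < d j) → (∀ j, d j ≤ D) → ∑ j, d j = 1 → Hyp m d C

theorem hypU : ∃ m : ℕ, HypU m := by
  obtain ⟨m, hR⟩ := H95.rootTh_of_stCost H990.stCost
  refine ⟨m, fun D' hD' => ?_⟩
  set D : ℝ := max D' (1 / 4) with hDdef
  have hD0 : 0 < D := lt_of_lt_of_le (by norm_num) (le_max_right _ _)
  have hD2 : D < 1 / 2 := max_lt hD' (by norm_num)
  have h1D : 2 < 1 / D := by rw [lt_div_iff₀ hD0]; linarith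
  set q : ℝ := (2 + 1 / D) / 2 with hq
  have hq2 : 2 < q := by rw [hq]; linarith
  have hDq : D * q < 1 := by
    have : D * q = D + 1 / 2 := by rw [hq]; field_simp
    linarith
  obtain ⟨C₁, hC₁, hroot⟩ := node_of_root_unif hq2 hDq
  obtain ⟨c, hc⟩ := exists_nat_ge (2 / (q - 2))
  obtain ⟨C, hC, hR⟩ := hR c
  refine ⟨C₁ * (C + 1), by positivity, fun d hd hdD hd1 n => ?_⟩
  have hdD' : ∀ j, d j ≤ D := fun j => (hdD j).trans (le_max_left _ _)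
  have hL1 : 1 ≤ 1 + Real.log (1 + (n : ℝ)) := by
    have h7 : 0 ≤ Real.log (1 + (n : ℝ)) := Real.log_nonneg (by
      have : (0 : ℝ) ≤ n := Nat.cast_nonneg n
      linarith)
    linarith
  have hLm : 1 ≤ (1 + Real.log (1 + (n : ℝ))) ^ m := one_le_pow₀ hL1
  rcases Nat.eq_zero_or_pos n with rfl | hn
  · have h1 := hroot d hd hdD' hd1 0 1 0 one_pos le_rfl (H95.rootTh_zero 1)
    refine H95.Node.mono h1 ?_
    simp only [Nat.cast_zero, zero_mul, add_zero, mul_zero]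
    positivity
  · have hn1 : (1 : ℝ) ≤ n := by exact_mod_cast hn
    have hn0 : (0 : ℝ) < n := by linarith
    have h1 := hroot d hd hdD' hd1 n ((n : ℝ) ^ c) _ (by positivity) (by positivity) (hR n hn)
    refine H95.Node.mono h1 ?_
    have h2 : (n : ℝ) * ((n : ℝ) ^ c) ^ (-(q - 2) / 2) ≤ 1 := by
      rw [← Real.rpow_natCast, ← Real.rpow_mul hn0.le]
      have h3 : (c : ℝ) * (-(q - 2) / 2) ≤ -1 := by
        have h4 : 2 ≤ (c : ℝ) * (q - 2) := by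
          rwa [div_le_iff₀ (by linarith)] at hc
        linarith
      calc (n : ℝ) * (n : ℝ) ^ ((c : ℝ) * (-(q - 2) / 2)) ≤ (n : ℝ) * (n : ℝ) ^ (-1 : ℝ) := by
            refine mul_le_mul_of_nonneg_left ?_ hn0.le
            exact Real.rpow_le_rpow_of_exponent_le hn1 h3
        _ = 1 := by rw [Real.rpow_neg_one, mul_inv_cancel₀ hn0.ne']
    rw [mul_assoc]
    refine mul_le_mul_of_nonneg_left ?_ hC₁.le
    nlinarith

/-- the form with a constant uniform in the exponents -/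
theorem form_U {m : ℕ} (H : HypU m) {D : ℝ} (hD : D < 1 / 2) : ∃ C' : ℝ, 0 ≤ C' ∧
    ∀ d : Fin 4 → ℝ, (∀ j, 0 < d j) → (∀ j, d j ≤ D) → ∑ j, d j = 1 →
      ∀ ε R : ℝ, 0 < ε → ε < R → ∀ f : Fin 4 → ℝ → ℂ, (∀ j, CB (f j)) →
        ‖QF ε R sl f‖ ≤ C' * LL ε R ^ m * ∏ i, (NN (f i) (1 / d i)) ^ (d i) := by
  obtain ⟨K, hK0, hK⟩ := form
  obtain ⟨C, hC, H⟩ := H D hD
  refine ⟨K * (C * 2 ^ m + 1), by positivity, fun d hd hdD hs ε R hε hR f hf => ?_⟩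
  obtain ⟨n, hn, hlog⟩ := scales hε hR
  have hLL := LL_ge hε hR
  have h0 : 0 ≤ 1 + Real.log (1 + (n : ℝ)) := by
    have : 0 ≤ Real.log (1 + (n : ℝ)) := Real.log_nonneg (by
      have : (0 : ℝ) ≤ n := Nat.cast_nonneg n
      linarith)
    linarith
  have h1 := hK n _ d (by positivity) hd hs (H d hd hdD hs n) f hf ε R hε hR hn
  refine h1.trans ?_
  have hP : 0 ≤ ∏ i, (NN (f i) (1 / d i)) ^ (d i) :=
    Finset.prod_nonneg fun i _ => Real.rpow_nonneg (NN_nonneg _ _) _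
  refine mul_le_mul_of_nonneg_right ?_ hP
  rw [mul_assoc]
  refine mul_le_mul_of_nonneg_left ?_ hK0
  have h2 : (1 + Real.log (1 + (n : ℝ))) ^ m ≤ 2 ^ m * LL ε R ^ m := by
    rw [← mul_pow]
    exact pow_le_pow_left₀ h0 hlog m
  have h3 : 1 ≤ LL ε R ^ m := one_le_pow₀ hLL
  nlinarith

/-- the operator with a constant uniform in the exponents -/
theorem op_U {m : ℕ} (H : HypU m) {D : ℝ} (hD : D < 1 / 2) : ∃ C' : ℝ, 0 ≤ C' ∧
    ∀ p₁ p₂ p₃ r : ℝ≥0∞, (∀ i, 0 < dd p₁ p₂ p₃ r i) → (∀ i, dd p₁ p₂ p₃ r i ≤ D) →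
      r⁻¹ = p₁⁻¹ + p₂⁻¹ + p₃⁻¹ →
      ∀ f₁ f₂ f₃ : ℝ → ℂ, Nice f₁ → Nice f₂ → Nice f₃ →
      ∀ ε R : ℝ, 0 < ε → ε < R → eLpNorm (TT ε R 1 2 3 f₁ f₂ f₃) r volume ≤
        ENNReal.ofReal (C' * LL ε R ^ m) * eLpNorm f₁ p₁ volume *
          eLpNorm f₂ p₂ volume * eLpNorm f₃ p₃ volume := by
  obtain ⟨C', hC'0, hC'⟩ := form_U H hD
  refine ⟨C', hC'0, fun p₁ p₂ p₃ r hd hdD hsum f₁ f₂ f₃ k₁ k₂ k₃ ε R hε hR => ?_⟩
  have hLL := LL_ge hε hR
  exact op_of_form hε (by positivity) hd hsum (fun f hf => hC' _ hd hdD (dd_sum hd hsum) ε R hε hR f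
    fun i => CB.of_simp (hf i)) k₁ k₂ k₃

end Vale.Agent.P141.PL.H620
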